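import Vale.Agent.P214.RC2X.Sup
import Vale.Agent.P214.LOCF.Props

/-!
# P214, block RC2X: fine information from the height at one scale

`Inp`: the data at the scale `t` for one exact minimal reference: coarse information, stationarity
in Fermi coordinates, and the kernel height at scale `(1 + 2d) t` is at most `S t²`.

`fine_bounds`: energy and sup of the height in the collar `{|XX| < (1 + d) t}` are bounded by
`C d^{-(m+5)} S`.
-/

open Set Filter Topology MeasureTheory Metric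
open scoped RealInnerProductSpace ContDiff

set_option linter.all false

namespace Vale.Agent.P214.RC2X

open FV ODE FM

variable {E : Type*} [NormedAddCommGroup E] [InnerProductSpace ℝ E] [FiniteDimensional ℝ E]
  [MeasurableSpace E] [BorelSpace E]

/-- the data at the scale `t` -/
structure Inp (m Q : ℕ) (T : Submodule ℝ E) (w : E → E) (ε κ h₁ : ℝ) (z : E) (t d S : ℝ)
    (k : ℝ → ℝ) (h δ : ℝ) (G : Set E) (h' : ℝ) (ν : Measure E) (P : E → E →L[ℝ] E) : Prop where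
  conf : LOCF.Conf m Q T w ε κ h₁ z t h δ ν P
  cylF : CylF m T w h₁ G h' (fmeas T w h₁ ν) (fP T w h₁ P)
  ball : BallIn T G z ((1 + 2 * d) * t)
  min : MinimalOver T w G
  slabF : ∀ᵐ Y ∂(fmeas T w h₁ ν), aX T w z Y < (2 * t) ^ 2 → ‖co T Y‖ ≤ t
  curv : κ * t ≤ 1
  Spos : 0 < S
  dpos : 0 < d
  dle : d ≤ 1 / 2
  hgt : HF m T w z k (fmeas T w h₁ ν) ((1 + 2 * d) * t) ≤ S * t ^ 2
  tube : S ^ (1 / 4 : ℝ) * t ≤ h₁

/-- kernels bounded below by `(1 - s)³` -/
def KerLow (ck : ℝ) (k : ℝ → ℝ) : Prop := ∀ s, 0 ≤ s → s ≤ 1 → ck * (1 - s) ^ 3 ≤ k s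

variable {m Q : ℕ} {T : Submodule ℝ E} {w : E → E} {ε κ h₁ : ℝ} {G : Set E} {h h' δ R ρ τ s : ℝ}
  {ν μ : Measure E} {P : E → E →L[ℝ] E} {z : E} {k k' K : ℝ → ℝ} {t d S ck : ℝ}

lemma BallIn.mono {ρ' : ℝ} (hG : BallIn T G z ρ) (h : ρ' ≤ ρ) : BallIn T G z ρ' :=
  fun x hx hx2 => hG x hx (hx2.trans h)

/-- the height integral is controlled by the kernel height at a larger scale -/
lemma Ju_le_HF (H : Adm T w ε κ h₁) (hC : CylF m T w h₁ G h' μ P) (hk : Kern k k' K)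
    (hck : 0 < ck) (hlow : KerLow ck k) (hρ : 0 < ρ) (hτ : ρ < τ) (hG : BallIn T G z τ)
    {q : ℝ} (hq0 : 0 < q) (hq : q * τ ≤ τ - ρ) :
    Ju T w z μ ρ ≤ 2 / (ck * q ^ 3) * (τ ^ m * HF m T w z k μ τ) := by
  haveI := hC.fin
  have hw := H.ref
  have hτ0 : 0 < τ := hρ.trans hτ
  have e1 : τ ^ m * HF m T w z k μ τ = kI T w z μ k (fun Y => vp T w z Y * ‖om T w Y‖ ^ 2) τ := by
    unfold HF
    rw [← mul_assoc]
    have : τ ^ m * τ ^ (-(m : ℤ)) = 1 := by
      rw [← zpow_natCast, ← zpow_add₀ hτ0.ne']; simp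
    rw [this, one_mul]
  rw [e1]
  unfold Ju kI
  have gu : Gd (aX T w z) μ τ (fun Y => ‖co T Y‖ ^ 2) :=
    (hC.gd hw hτ0.le hG (co T).continuous).norm.pow 2
  have gvo : Gd (aX T w z) μ τ (fun Y => vp T w z Y * ‖om T w Y‖ ^ 2) :=
    (hC.gd_vp H).mul ((hC.gd hw hτ0.le hG hw.contDiff_om.continuous).norm.pow 2)
  rw [← integral_indicator (measurableSet_ball hw z _), ← integral_const_mul]
  refine integral_mono_of_nonneg (Eventually.of_forall fun Y =>
      indicator_nonneg (fun _ _ => sq_nonneg _) _)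
    ((hC.intg H gvo hk.pk.continuous hk.pk.zero hτ0 le_rfl).const_mul _)
    (Eventually.of_forall fun Y => ?_)
  have h0 : 0 ≤ k (aX T w z Y / τ ^ 2) * (vp T w z Y * ‖om T w Y‖ ^ 2) := by
    have := hw.half_le_vp H.eps_le z Y
    have := hk.nonneg (aX T w z Y / τ ^ 2)
    positivity
  by_cases h1 : aX T w z Y < ρ ^ 2
  · simp only [indicator_of_mem (show Y ∈ {Y | aX T w z Y < ρ ^ 2} from h1)]
    have h2 : q ≤ 1 - aX T w z Y / τ ^ 2 := by
      have h3 : aX T w z Y / τ ^ 2 ≤ ρ ^ 2 / τ ^ 2 := by gcongr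
      have h4 : q ≤ 1 - ρ ^ 2 / τ ^ 2 := by
        have h5 : q * τ * τ ≤ (τ - ρ) * (τ + ρ) := by nlinarith
        rw [le_sub_iff_add_le, ← le_sub_iff_add_le', div_le_iff₀ (by positivity)]
        nlinarith
      linarith
    have h3 : aX T w z Y / τ ^ 2 ≤ 1 := by linarith
    have h4 := hlow _ (div_nonneg (aX_nonneg Y) (by positivity)) h3
    have h5 : ck * q ^ 3 ≤ k (aX T w z Y / τ ^ 2) := by
      refine le_trans ?_ h4
      gcongr
    have h6 := hw.half_le_vp H.eps_le z Y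
    have h7 : ‖co T Y‖ ^ 2 ≤ ‖om T w Y‖ ^ 2 := (norm_sq_om H Y).1
    have h8 : ck * q ^ 3 * (1 / 2 * ‖co T Y‖ ^ 2) ≤
        k (aX T w z Y / τ ^ 2) * (vp T w z Y * ‖om T w Y‖ ^ 2) := by
      have h9 : 0 ≤ ck * q ^ 3 := by positivity
      have h10 := h9.trans h5
      gcongr
    calc ‖co T Y‖ ^ 2 = 2 / (ck * q ^ 3) * (ck * q ^ 3 * (1 / 2 * ‖co T Y‖ ^ 2)) := by
          field_simp
      _ ≤ _ := by gcongr
  · simp only [indicator_of_notMem (show Y ∉ {Y | aX T w z Y < ρ ^ 2} from h1)]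
    positivity

namespace Inp

variable (I : Inp m Q T w ε κ h₁ z t d S k h δ G h' ν P)

include I

lemma tpos : 0 < t := I.conf.pos

/-- the height integral -/
lemma Ju_le (hk : Kern k k' K) (hck : 0 < ck) (hlow : KerLow ck k) :
    Ju T w z (fmeas T w h₁ ν) ((1 + 7 / 4 * d) * t) ≤
      1024 * 2 ^ m / ck * ((d⁻¹) ^ 3 * S * t ^ (m + 2)) := by
  have ht := I.tpos
  have hd := I.dpos
  have hdl := I.dle
  have hS := I.Spos
  have h1 := Ju_le_HF (P := fP T w h₁ P) I.conf.adm I.cylF hk hck hlow (ρ := (1 + 7 / 4 * d) * t)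
    (τ := (1 + 2 * d) * t) (z := z) (by positivity) (by nlinarith) I.ball (q := d / 8)
    (by positivity) (by
      have hdt : 0 ≤ d * t := by positivity
      have h2 := mul_le_mul_of_nonneg_left (show 1 + 2 * d ≤ 2 by linarith) hdt
      linarith)
  refine h1.trans ?_
  have h2 : ((1 + 2 * d) * t) ^ m * HF m T w z k (fmeas T w h₁ ν) ((1 + 2 * d) * t) ≤
      (2 * t) ^ m * (S * t ^ 2) := by
    have h3 := I.hgt
    have h4 : (1 + 2 * d) * t ≤ 2 * t := by nlinarith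
    calc _ ≤ ((1 + 2 * d) * t) ^ m * (S * t ^ 2) := by gcongr
      _ ≤ _ := by gcongr
  calc 2 / (ck * (d / 8) ^ 3) * (((1 + 2 * d) * t) ^ m *
        HF m T w z k (fmeas T w h₁ ν) ((1 + 2 * d) * t))
      ≤ 2 / (ck * (d / 8) ^ 3) * ((2 * t) ^ m * (S * t ^ 2)) := by gcongr
    _ = _ := by
        rw [mul_pow, pow_add]
        field_simp
        ring

end Inp

/-- constant of the height integral -/
noncomputable def C1 (m : ℕ) (ck : ℝ) : ℝ := 1024 * 2 ^ m / ck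

/-- constant of the sup bound -/
noncomputable def C2 (m : ℕ) (ck : ℝ) : ℝ :=
  16 * Real.exp (3 * m / 2) / cg m * 8 ^ m * C1 m ck

/-- constant of the energy bound -/
noncomputable def C3 (m N : ℕ) (ck : ℝ) : ℝ := (8 * N + 292 * cT ^ 2) * C1 m ck

/-- smallness of `S` -/
noncomputable def c0 (m : ℕ) (ck : ℝ) : ℝ := cg m / (2 * 128 ^ (m + 2) * C1 m ck)

lemma C1_pos (hck : 0 < ck) : 0 < C1 m ck := by unfold C1; positivity

lemma C2_pos (hck : 0 < ck) : 0 < C2 m ck := by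
  have := cg_pos m
  have := C1_pos (m := m) hck
  unfold C2; positivity

lemma C3_nonneg (N : ℕ) (hck : 0 < ck) : 0 ≤ C3 m N ck := by
  have := C1_pos (m := m) hck
  unfold C3; positivity

lemma c0_pos (hck : 0 < ck) : 0 < c0 m ck := by
  have := cg_pos m
  have := C1_pos (m := m) hck
  unfold c0; positivity

namespace Inp

variable (I : Inp m Q T w ε κ h₁ z t d S k h δ G h' ν P)

include I

/-- crude sup bound -/
lemma crude (hk : Kern k k' K) (hck : 0 < ck) (hlow : KerLow ck k)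
    (hS : S ≤ c0 m ck * d ^ (m + 5)) :
    ∀ᵐ Y ∂(fmeas T w h₁ ν), aX T w z Y < ((1 + 3 / 2 * d) * t) ^ 2 → ‖co T Y‖ < d * t / 16 := by
  have ht := I.tpos
  have hd := I.dpos
  have hdl := I.dle
  have hS0 := I.Spos
  have hC1 := C1_pos (m := m) hck
  have hcg := cg_pos m
  have hJ := I.Ju_le hk hck hlow
  have h1 := crude_sup (P := P) (h := h) (δ := δ) (s := d * t / 128) (b := t) (R := 4 * t)
    (ρ₁ := (1 + 3 / 2 * d) * t) (ρ := (1 + 7 / 4 * d) * t) (z := z) I.conf.adm I.conf.cyl I.cylF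
    (by positivity) (by positivity) (by nlinarith) (BallIn.mono I.ball (by nlinarith))
    (by nlinarith)
    (by
      filter_upwards [I.slabF] with Y hY h2
      exact hY (h2.trans_le (by gcongr; nlinarith)))
    (hJ.trans_lt ?_)
  · filter_upwards [h1] with Y hY h2
    have := hY h2
    linarith
  · have h2 : C1 m ck * ((d⁻¹) ^ 3 * S * t ^ (m + 2)) ≤
        C1 m ck * ((d⁻¹) ^ 3 * (c0 m ck * d ^ (m + 5)) * t ^ (m + 2)) := by gcongr
    have h3 : C1 m ck * ((d⁻¹) ^ 3 * (c0 m ck * d ^ (m + 5)) * t ^ (m + 2)) =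
        1 / 2 * (cg m * (d * t / 128) ^ (m + 2)) := by
      have e : d ^ (m + 5) = d ^ 3 * d ^ (m + 2) := by rw [← pow_add]; congr 1; ring
      rw [e]
      unfold c0
      rw [div_pow, mul_pow]
      field_simp
    have h4 : 0 < cg m * (d * t / 128) ^ (m + 2) := by positivity
    have h5 : (1024 : ℝ) * 2 ^ m / ck = C1 m ck := rfl
    rw [h5]
    linarith

/-- **sup bound in the collar** -/
theorem sup_le (hk : Kern k k' K) (hck : 0 < ck) (hlow : KerLow ck k)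
    (hS : S ≤ c0 m ck * d ^ (m + 5)) :
    ∀ᵐ Y ∂(fmeas T w h₁ ν), aX T w z Y < ((1 + d) * t) ^ 2 →
      ‖co T Y‖ ^ 2 ≤ C2 m ck * (d⁻¹) ^ (m + 3) * S * t ^ 2 := by
  have ht := I.tpos
  have hd := I.dpos
  have hdl := I.dle
  have hS0 := I.Spos
  have hC1 := C1_pos (m := m) hck
  have hcg := cg_pos m
  have hJ := I.Ju_le hk hck hlow
  have hcr := I.crude hk hck hlow hS
  have hcurv := I.curv
  have hkn := I.conf.adm.ref.knn
  have h1 := linear_sup (P := P) (h := h) (δ := δ) (s := d * t / 8) (R := 4 * t)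
    (ρ₁ := (1 + d) * t) (ρ := (1 + 3 / 2 * d) * t) (z := z) I.conf.adm I.conf.cyl I.cylF I.min
    (by positivity) (by positivity) (by nlinarith) (BallIn.mono I.ball (by nlinarith))
    (BallIn.mono I.ball (by nlinarith)) (by nlinarith)
    (by
      calc κ * (d * t / 8) = (κ * t) * (d / 8) := by ring
        _ ≤ 1 * 1 := by gcongr; linarith
        _ = 1 := by norm_num)
    (by
      filter_upwards [hcr] with Y hY h2
      have := hY h2
      have : 0 < d * t := by positivity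
      linarith)
  filter_upwards [h1] with Y hY h2
  have h3 := hY h2
  have h4 : Ju T w z (fmeas T w h₁ ν) ((1 + 3 / 2 * d) * t) ≤
      C1 m ck * ((d⁻¹) ^ 3 * S * t ^ (m + 2)) := by
    refine le_trans ?_ hJ
    unfold Ju
    haveI := I.cylF.fin
    have gu : Gd (aX T w z) (fmeas T w h₁ ν) ((1 + 7 / 4 * d) * t) (fun Y => ‖co T Y‖ ^ 2) :=
      (I.cylF.gd I.conf.adm.ref (by positivity) (BallIn.mono I.ball (by nlinarith))
        (co T).continuous).norm.pow 2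
    refine setIntegral_mono_set (gd_integrableOn I.conf.adm.ref gu le_rfl)
      (Eventually.of_forall fun _ => sq_nonneg _) (Eventually.of_forall fun Y h5 => ?_)
    have h5' : aX T w z Y < ((1 + 3 / 2 * d) * t) ^ 2 := h5
    have h6 : (1 + 3 / 2 * d) * t ≤ (1 + 7 / 4 * d) * t := by nlinarith
    exact lt_of_lt_of_le h5' (pow_le_pow_left₀ (by positivity) h6 2)
  have h5 : cg m * ‖co T Y‖ ^ 2 ≤ 16 * Real.exp (3 * m / 2) *
      (C1 m ck * ((d⁻¹) ^ 3 * S * t ^ (m + 2)) / (d * t / 8) ^ m) := by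
    refine h3.trans ?_
    gcongr
  have h6 : 16 * Real.exp (3 * m / 2) *
      (C1 m ck * ((d⁻¹) ^ 3 * S * t ^ (m + 2)) / (d * t / 8) ^ m) =
      cg m * (C2 m ck * (d⁻¹) ^ (m + 3) * S * t ^ 2) := by
    unfold C2
    rw [div_pow, mul_pow, pow_add, pow_add, inv_pow, inv_pow]
    field_simp
  rw [h6] at h5
  exact le_of_mul_le_mul_left h5 hcg

/-- **energy bound in the collar** -/
theorem energy_le (hk : Kern k k' K) (hck : 0 < ck) (hlow : KerLow ck k) :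
    ∫ Y in {Y | aX T w z Y < ((1 + d) * t) ^ 2}, eS T w Y (fP T w h₁ P Y) ∂(fmeas T w h₁ ν) ≤
      C3 m (Module.finrank ℝ E) ck * (d⁻¹) ^ 5 * S * t ^ m := by
  have ht := I.tpos
  have hd := I.dpos
  have hdl := I.dle
  have hS0 := I.Spos
  have hC1 := C1_pos (m := m) hck
  have hJ := I.Ju_le hk hck hlow
  have hcurv := I.curv
  have hkn := I.conf.adm.ref.knn
  have h1 := cacc (s := (1 + d) * t) (τ := (1 + 7 / 4 * d) * t) (z := z) I.conf.adm I.cylF I.min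
    (BallIn.mono I.ball (by nlinarith)) (BallIn.mono I.ball (by nlinarith)) (by positivity)
    (by nlinarith)
  refine h1.trans ?_
  set N : ℕ := Module.finrank ℝ E
  have h2 : 8 * N * κ ^ 2 + 164 * cT ^ 2 / ((1 + 7 / 4 * d) * t - (1 + d) * t) ^ 2 ≤
      (8 * N + 292 * cT ^ 2) * ((d⁻¹) ^ 2 * (t⁻¹) ^ 2) := by
    have e1 : (1 + 7 / 4 * d) * t - (1 + d) * t = 3 / 4 * (d * t) := by ring
    rw [e1]
    have e2 : 164 * cT ^ 2 / (3 / 4 * (d * t)) ^ 2 ≤ 292 * cT ^ 2 * ((d⁻¹) ^ 2 * (t⁻¹) ^ 2) := by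
      have : 164 * cT ^ 2 / (3 / 4 * (d * t)) ^ 2 =
          (2624 / 9) * (cT ^ 2 * ((d⁻¹) ^ 2 * (t⁻¹) ^ 2)) := by
        field_simp
        ring
      rw [this]
      have h3 : 0 ≤ cT ^ 2 * ((d⁻¹) ^ 2 * (t⁻¹) ^ 2) := by positivity
      nlinarith
    have e3 : κ ^ 2 ≤ (d⁻¹) ^ 2 * (t⁻¹) ^ 2 := by
      have h3 : κ ≤ d⁻¹ * t⁻¹ := by
        have h4 : (1:ℝ) ≤ d⁻¹ := (one_le_inv₀ hd).2 (by linarith)
        calc κ = κ * t * t⁻¹ := by field_simp
          _ ≤ 1 * t⁻¹ := by gcongr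
          _ ≤ d⁻¹ * t⁻¹ := by gcongr
      calc κ ^ 2 ≤ (d⁻¹ * t⁻¹) ^ 2 := by gcongr
        _ = _ := by ring
    have e4 : 8 * (N : ℝ) * κ ^ 2 ≤ 8 * N * ((d⁻¹) ^ 2 * (t⁻¹) ^ 2) := by gcongr
    calc _ ≤ 8 * (N : ℝ) * ((d⁻¹) ^ 2 * (t⁻¹) ^ 2) + 292 * cT ^ 2 * ((d⁻¹) ^ 2 * (t⁻¹) ^ 2) :=
          add_le_add e4 e2
      _ = _ := by ring
  have hJ0 := Ju_nonneg (T := T) (w := w) (z := z) (ρ := (1 + 7 / 4 * d) * t) (fmeas T w h₁ ν)
  have hJ' : Ju T w z (fmeas T w h₁ ν) ((1 + 7 / 4 * d) * t) ≤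
      C1 m ck * ((d⁻¹) ^ 3 * S * t ^ (m + 2)) := hJ
  calc (8 * N * κ ^ 2 + 164 * cT ^ 2 / ((1 + 7 / 4 * d) * t - (1 + d) * t) ^ 2) *
        Ju T w z (fmeas T w h₁ ν) ((1 + 7 / 4 * d) * t)
      ≤ ((8 * N + 292 * cT ^ 2) * ((d⁻¹) ^ 2 * (t⁻¹) ^ 2)) *
          (C1 m ck * ((d⁻¹) ^ 3 * S * t ^ (m + 2))) := by gcongr
    _ = _ := by
        unfold C3
        rw [pow_add]
        field_simp

end Inp

end Vale.Agent.P214.RC2X
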