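import Vale.Agent.P214.FM.Ode
import Vale.Agent.P214.ODEF.BulkF

/-!
# P214, block RC2X: Caccioppoli inequality in Fermi coordinates

`cacc`: `∫_{|XX| < s} e_Σ ≤ (8 N κ² + 164 c_T² (τ - s)⁻²) ∫_{|XX| < τ} |u|²` for a stationary
measure in Fermi coordinates of an exact minimal reference graph.
-/

open Set Filter Topology MeasureTheory Metric
open scoped RealInnerProductSpace ContDiff

set_option linter.all false

namespace Vale.Agent.P214.RC2X

open FV ODE FM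

/-! ### the cut-off profile -/

/-- `1` for `s ≤ lam`, `0` for `s ≥ 1` -/
noncomputable def chi (lam s : ℝ) : ℝ := Real.smoothTransition ((1 - s) / (1 - lam))

/-- its derivative -/
noncomputable def chi' (lam s : ℝ) : ℝ :=
  -(deriv Real.smoothTransition ((1 - s) / (1 - lam)) / (1 - lam))

lemma chi_nonneg (lam s : ℝ) : 0 ≤ chi lam s := Real.smoothTransition.nonneg _

lemma chi_le_one (lam s : ℝ) : chi lam s ≤ 1 := Real.smoothTransition.le_one _

lemma chi_eq_one {lam s : ℝ} (hl : lam < 1) (h : s ≤ lam) : chi lam s = 1 := by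
  unfold chi
  refine Real.smoothTransition.one_of_one_le ?_
  rw [one_le_div (by linarith)]
  linarith

lemma chi_eq_zero {lam s : ℝ} (hl : lam < 1) (h : 1 ≤ s) : chi lam s = 0 := by
  unfold chi
  refine Real.smoothTransition.zero_of_nonpos ?_
  exact div_nonpos_of_nonpos_of_nonneg (by linarith) (by linarith)

lemma hasDerivAt_chi (lam s : ℝ) : HasDerivAt (chi lam) (chi' lam s) s := by
  have h1 : HasDerivAt Real.smoothTransition
      (deriv Real.smoothTransition ((1 - s) / (1 - lam))) ((1 - s) / (1 - lam)) :=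
    ((Real.smoothTransition.contDiff (n := 1)).differentiable (by norm_num) _).hasDerivAt
  have h2 : HasDerivAt (fun s : ℝ => (1 - s) / (1 - lam)) (-1 / (1 - lam)) s := by
    have := ((hasDerivAt_id s).const_sub 1).div_const (1 - lam)
    simpa using this
  have h3 := h1.comp s h2
  refine h3.congr_deriv ?_
  unfold chi'
  ring

lemma continuous_chi (lam : ℝ) : Continuous (chi lam) :=
  continuous_iff_continuousAt.2 fun s => (hasDerivAt_chi lam s).continuousAt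

lemma continuous_chi' (lam : ℝ) : Continuous (chi' lam) := by
  unfold chi'
  have h1 : Continuous (deriv Real.smoothTransition) :=
    (Real.smoothTransition.contDiff (n := 1)).continuous_deriv (by norm_num)
  exact ((h1.comp ((continuous_const.sub continuous_id).div_const _)).div_const _).neg

lemma abs_chi'_le {lam : ℝ} (hl : lam < 1) (s : ℝ) : |chi' lam s| ≤ cT / (1 - lam) := by
  unfold chi'
  rw [abs_neg, abs_div, abs_of_pos (show 0 < 1 - lam by linarith)]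
  have := abs_deriv_le_cT ((1 - s) / (1 - lam))
  have : 0 < 1 - lam := by linarith
  gcongr

/-- the square of the cut-off is a profile -/
lemma profile_sq {lam : ℝ} (hl : lam < 1) :
    Profile (fun s => chi lam s ^ 2) (fun s => 2 * chi lam s * chi' lam s) where
  der s := by
    have := (hasDerivAt_chi lam s).pow 2
    refine this.congr_deriv ?_
    simp
  cont := (continuous_const.mul (continuous_chi lam)).mul (continuous_chi' lam)
  zero s hs := by
    show chi lam s ^ 2 = 0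
    rw [chi_eq_zero hl hs]; ring

/-! ### integrability on balls -/

variable {E : Type*} [NormedAddCommGroup E] [InnerProductSpace ℝ E] [FiniteDimensional ℝ E]
  [MeasurableSpace E] [BorelSpace E]

variable {m : ℕ} {T : Submodule ℝ E} {w : E → E} {ε κ h₁ : ℝ} {G : Set E} {h : ℝ}
  {ν : Measure E} {P : E → E →L[ℝ] E} {z : E} {s τ t R : ℝ}

lemma measurableSet_ball (hw : Ref T w ε κ) (z : E) (c : ℝ) :
    MeasurableSet {Y | aX T w z Y < c} :=
  measurableSet_lt (hw.continuous_aX z).measurable measurable_const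

lemma gd_integrableOn [IsFiniteMeasure ν] (hw : Ref T w ε κ) {f : E → ℝ}
    (hf : Gd (aX T w z) ν R f) {c : ℝ} (hc : c ≤ R ^ 2) :
    IntegrableOn f {Y | aX T w z Y < c} ν := by
  obtain ⟨C, hC, hb⟩ := hf.bd
  refine Measure.integrableOn_of_bounded (measure_ne_top _ _) hf.meas (M := C) ?_
  rw [ae_restrict_iff' (measurableSet_ball hw z c)]
  filter_upwards [hb] with Y h1 h2
  exact h1 (lt_of_lt_of_le h2 hc)

lemma gd_integrable_ind [IsFiniteMeasure ν] (hw : Ref T w ε κ) {f : E → ℝ}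
    (hf : Gd (aX T w z) ν R f) {c : ℝ} (hc : c ≤ R ^ 2) :
    Integrable ({Y | aX T w z Y < c}.indicator f) ν :=
  (integrable_indicator_iff (measurableSet_ball hw z c)).2 (gd_integrableOn hw hf hc)

lemma gd_eS (hC : CylF m T w h₁ G h ν P) (hw : Ref T w ε κ) (hR : 0 ≤ R) (hG : BallIn T G z R) :
    Gd (aX T w z) ν R (fun Y => eS T w Y (P Y)) := by
  have h1 : Gd (aX T w z) ν R (fun Y => tr (P Y) - tr ((PS T w Y).comp (P Y))) :=
    hC.gdP.tr.sub ((hC.gd hw hR hG hw.contDiff_PS.continuous).comp hC.gdP).tr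
  have h2 : (fun Y => eS T w Y (P Y)) = fun Y => tr (P Y) - tr ((PS T w Y).comp (P Y)) := by
    funext Y
    exact tilt_eq (planeOf T w Y) (P Y)
  rw [h2]; exact h1

lemma eS_nonneg (hC : CylF m T w h₁ G h ν P) : ∀ᵐ Y ∂ν, 0 ≤ eS T w Y (P Y) := by
  filter_upwards [hC.proj] with Y hY
  obtain ⟨S, -, hS⟩ := hY
  rw [hS]; exact tilt_nonneg S _

lemma eS_le (hC : CylF m T w h₁ G h ν P) : ∀ᵐ Y ∂ν, eS T w Y (P Y) ≤ m := by
  filter_upwards [hC.proj] with Y hY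
  obtain ⟨S, hm, hS⟩ := hY
  rw [hS, ← hm]; exact tilt_le (T := planeOf T w Y) (S := S)

/-- the position is orthogonal to the tangent plane -/
lemma star_om (hw : Ref T w ε κ) (Y : E) : (planeOf T w Y).starProjection (om T w Y) = 0 := by
  have h1 := hw.PS_D0 Y (co T Y)
  rw [star_co, map_zero, ← hw.om_eq] at h1
  exact h1

/-- size of the vertical displacement -/
lemma norm_sq_om (H : Adm T w ε κ h₁) (Y : E) :
    ‖co T Y‖ ^ 2 ≤ ‖om T w Y‖ ^ 2 ∧ ‖om T w Y‖ ^ 2 ≤ 2 * ‖co T Y‖ ^ 2 := by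
  have hw := H.ref
  have he := H.eps_le
  have he0 := hw.eps_nonneg
  have h1 : ‖om T w Y‖ ^ 2 = ‖co T Y‖ ^ 2 + ‖adj (fderiv ℝ w Y) (co T Y)‖ ^ 2 := by
    unfold om
    rw [norm_sub_sq_real]
    have : ⟪co T Y, adj (fderiv ℝ w Y) (co T Y)⟫ = 0 := by
      rw [inner_co, hw.co_adj_fderiv, inner_zero_right]
    rw [this]; ring
  have h2 : ‖adj (fderiv ℝ w Y) (co T Y)‖ ≤ 1 / 16 * ‖co T Y‖ :=
    (hw.norm_adj_fderiv_apply_le Y _).trans (by gcongr)
  constructor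
  · rw [h1]; have := sq_nonneg ‖adj (fderiv ℝ w Y) (co T Y)‖; linarith
  · rw [h1]
    have : ‖adj (fderiv ℝ w Y) (co T Y)‖ ^ 2 ≤ (1 / 16 * ‖co T Y‖) ^ 2 := by gcongr
    nlinarith [sq_nonneg ‖co T Y‖]

lemma norm_om_le (H : Adm T w ε κ h₁) (Y : E) : ‖om T w Y‖ ≤ 17 / 16 * ‖co T Y‖ := by
  have hw := H.ref
  have he := H.eps_le
  unfold om
  calc _ ≤ ‖co T Y‖ + ‖adj (fderiv ℝ w Y) (co T Y)‖ := norm_sub_le _ _
    _ ≤ ‖co T Y‖ + 1 / 16 * ‖co T Y‖ := by
        gcongr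
        exact (hw.norm_adj_fderiv_apply_le Y _).trans (by gcongr)
    _ = _ := by ring

/-- size of the radial field -/
lemma norm_rh_le (H : Adm T w ε κ h₁) (z Y : E) : ‖rh T w h₁ z Y‖ ≤ 3 / 2 * ‖XX T w z Y‖ := by
  have h1 : cR T w z Y = XX T w z Y := rfl
  unfold rh
  rw [h1]
  calc _ ≤ ‖Jm T w h₁ Y‖ * ‖XX T w z Y‖ := norm_adj_apply_le _ _
    _ ≤ 4 / 3 * ‖XX T w z Y‖ := by
        gcongr
        exact H.norm_Jm_le Y
    _ ≤ 3 / 2 * ‖XX T w z Y‖ := by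
        have := norm_nonneg (XX T w z Y)
        linarith

/-- `|⟨rh, P om⟩| ≤ (51/32) |XX| |u| √e` -/
lemma abs_inner_rh_P_om_le (H : Adm T w ε κ h₁) (z Y : E) (S : Submodule ℝ E) :
    |⟪rh T w h₁ z Y, S.starProjection (om T w Y)⟫| ≤
      51 / 32 * ‖XX T w z Y‖ * ‖co T Y‖ * √(eS T w Y S.starProjection) := by
  have h1 := norm_sq_star_co_le (T := planeOf T w Y) (S := S) (om T w Y)
  have h2 : co (planeOf T w Y) (om T w Y) = om T w Y := by
    rw [co_apply, star_om H.ref, sub_zero]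
  rw [h2] at h1
  have h3 : ‖S.starProjection (om T w Y)‖ ≤ √(eS T w Y S.starProjection) * ‖om T w Y‖ := by
    refine abs_le_of_sq_le_sq' ?_ (by positivity) |>.2
    have h6 : 0 ≤ eS T w Y S.starProjection := tilt_nonneg S _
    rw [mul_pow, Real.sq_sqrt h6]
    exact h1
  have h4 : ‖rh T w h₁ z Y‖ ≤ 3 / 2 * ‖XX T w z Y‖ := norm_rh_le H z Y
  have h5 : ‖om T w Y‖ ≤ 17 / 16 * ‖co T Y‖ := norm_om_le H Y
  calc _ ≤ ‖rh T w h₁ z Y‖ * ‖S.starProjection (om T w Y)‖ := abs_real_inner_le_norm _ _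
    _ ≤ (3 / 2 * ‖XX T w z Y‖) * (√(eS T w Y S.starProjection) * (17 / 16 * ‖co T Y‖)) := by
        gcongr
        exact h3.trans (by gcongr)
    _ = _ := by ring

/-- elementary -/
lemma alg_cacc {c c' x e u tr' N κ τ q I : ℝ} (hc : 0 ≤ c) (he : 0 ≤ e) (hu : 0 ≤ u)
    (hτ : 0 < τ) (hx : 0 ≤ x) (hxτ : x ≤ τ)
    (h1 : e / 2 - 2 * N * (κ * u) ^ 2 ≤ tr')
    (h2 : |I| ≤ 51 / 32 * x * u * √e) (hcc : |c'| ≤ q) :
    c ^ 2 * e ≤ 4 * (c ^ 2 * tr' + 2 / τ ^ 2 * (2 * c * c' * I)) +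
      c ^ 2 * (8 * N * κ ^ 2 * u ^ 2) + 164 * q ^ 2 / τ ^ 2 * u ^ 2 := by
  have hq : 0 ≤ q := (abs_nonneg _).trans hcc
  have hse : √e ^ 2 = e := Real.sq_sqrt he
  have h0 := Real.sqrt_nonneg e
  have h3 : |2 / τ ^ 2 * (2 * c * c' * I)| ≤ 1 / 4 * c ^ 2 * e + 41 * q ^ 2 / τ ^ 2 * u ^ 2 := by
    have e1 : |2 / τ ^ 2 * (2 * c * c' * I)| = 2 / τ ^ 2 * (2 * c * |c'| * |I|) := by
      rw [abs_mul, abs_mul, abs_mul, abs_mul, abs_of_nonneg hc,
        abs_of_nonneg (show (0:ℝ) ≤ 2 / τ ^ 2 by positivity), abs_of_nonneg (show (0:ℝ) ≤ 2 by norm_num)]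
    rw [e1]
    have e2 : 2 / τ ^ 2 * (2 * c * |c'| * |I|) ≤ 2 / τ ^ 2 * (2 * c * q * (51 / 32 * τ * u * √e)) := by
      gcongr
      exact h2.trans (by gcongr)
    refine e2.trans ?_
    have e3 : 2 / τ ^ 2 * (2 * c * q * (51 / 32 * τ * u * √e)) =
        2 * (1 / 2 * (c * √e)) * (51 / 8 * (q / τ * u)) := by
      field_simp
      ring
    rw [e3]
    have e4 := sq_nonneg (1 / 2 * (c * √e) - 51 / 8 * (q / τ * u))
    have e5 : (1 / 2 * (c * √e)) ^ 2 = 1 / 4 * c ^ 2 * e := by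
      rw [mul_pow, mul_pow, hse]; ring
    have e6 : (51 / 8 * (q / τ * u)) ^ 2 ≤ 41 * q ^ 2 / τ ^ 2 * u ^ 2 := by
      have : (51 / 8 * (q / τ * u)) ^ 2 = 2601 / 64 * (q ^ 2 / τ ^ 2 * u ^ 2) := by ring
      rw [this]
      have h7 : 0 ≤ q ^ 2 / τ ^ 2 * u ^ 2 := by positivity
      calc 2601 / 64 * (q ^ 2 / τ ^ 2 * u ^ 2) ≤ 41 * (q ^ 2 / τ ^ 2 * u ^ 2) := by
            gcongr; norm_num
        _ = _ := by ring
    nlinarith
  have h4 := (abs_le.1 h3).1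
  have h5 : c ^ 2 * (e / 2 - 2 * N * (κ * u) ^ 2) ≤ c ^ 2 * tr' := by gcongr
  have h6 : 164 * q ^ 2 / τ ^ 2 * u ^ 2 = 4 * (41 * q ^ 2 / τ ^ 2 * u ^ 2) := by ring
  rw [h6]
  nlinarith

/-- the trace of the outer variation -/
lemma le_trJ_om (H : Adm T w ε κ h₁) {Y : E} (hY : ‖co T Y‖ < h₁) (hmin : lap w (PS T w Y) Y = 0)
    {S : Submodule ℝ E} (hS : Module.finrank ℝ S = Module.finrank ℝ T) (hPY : P Y = S.starProjection) :
    eS T w Y (P Y) / 2 - 2 * Module.finrank ℝ E * (κ * ‖co T Y‖) ^ 2 ≤ trJ T w h₁ P (om T w) Y := by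
  have h1 := ODEF.bulk_om H hY hmin hS
  have h2 : ODEF.omF T w = om T w := rfl
  rw [h2] at h1
  unfold trJ
  rw [hPY]
  have h3 : 8 * (κ * ‖co T Y‖) ≤ 1 / 2 := by
    have := H.hκ
    have := H.ref.knn
    calc 8 * (κ * ‖co T Y‖) ≤ 8 * (κ * h₁) := by gcongr
      _ ≤ 1 / 2 := by linarith
  have h4 : 0 ≤ eS T w Y S.starProjection := tilt_nonneg S _
  have h5 := (abs_le.1 h1).1
  nlinarith [mul_le_mul_of_nonneg_right h3 h4]

/-- **Caccioppoli inequality in Fermi coordinates.** -/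
theorem cacc (H : Adm T w ε κ h₁) (hC : CylF m T w h₁ G h ν P) {G' : Set E}
    (hmin : MinimalOver T w G') (hG : BallIn T G z τ) (hG' : BallIn T G' z τ) (hs : 0 < s)
    (hsτ : s < τ) :
    ∫ Y in {Y | aX T w z Y < s ^ 2}, eS T w Y (P Y) ∂ν ≤
      (8 * Module.finrank ℝ E * κ ^ 2 + 164 * cT ^ 2 / (τ - s) ^ 2) *
        ∫ Y in {Y | aX T w z Y < τ ^ 2}, ‖co T Y‖ ^ 2 ∂ν := by
  haveI := hC.fin
  have hw := H.ref
  have hτ : 0 < τ := hs.trans hsτ
  set lam : ℝ := s ^ 2 / τ ^ 2 with hlam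
  have hl1 : lam < 1 := by
    rw [hlam, div_lt_one (by positivity)]
    gcongr
  have h1l : (τ - s) / τ ≤ 1 - lam := by
    rw [hlam, div_le_iff₀ hτ]
    have : (1 - s ^ 2 / τ ^ 2) * τ = (τ - s) * ((τ + s) / τ) := by
      field_simp
      ring
    rw [this]
    have h2 : 1 ≤ (τ + s) / τ := by rw [one_le_div hτ]; linarith
    nlinarith
  set q : ℝ := cT / (1 - lam) with hq
  have hq0 : 0 ≤ q := div_nonneg cT_nonneg (by linarith)
  have hqb : q ^ 2 / τ ^ 2 ≤ cT ^ 2 / (τ - s) ^ 2 := by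
    have h0 : q ≤ cT / ((τ - s) / τ) := by
      rw [hq]
      have : 0 < (τ - s) / τ := div_pos (by linarith) hτ
      have := cT_nonneg
      gcongr
    have h1 : cT / ((τ - s) / τ) = τ * (cT / (τ - s)) := by
      have : τ - s ≠ 0 := by linarith
      field_simp
    rw [h1] at h0
    calc q ^ 2 / τ ^ 2 ≤ (τ * (cT / (τ - s))) ^ 2 / τ ^ 2 := by gcongr
      _ = cT ^ 2 / (τ - s) ^ 2 := by
          have : τ - s ≠ 0 := by linarith
          field_simp
  set N : ℝ := (Module.finrank ℝ E : ℝ) with hN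
  have hN0 : 0 ≤ N := Nat.cast_nonneg _
  have hp := profile_sq hl1
  have one_le : (1 : WithTop ℕ∞) ≤ ∞ := WithTop.coe_le_coe.2 le_top
  have hom1 : ContDiff ℝ 1 (om T w) := hw.contDiff_om.of_le one_le
  have hrad := hC.radial' H hp hom1 hτ hG
  have gtr := hC.gd_trJ H hτ.le hG hom1
  have grh := hC.gd_innerP H hτ.le hG (H.contDiff_rh z).continuous hw.contDiff_om.continuous
  have ge := gd_eS hC hw hτ.le hG
  have gu : Gd (aX T w z) ν τ (fun Y => ‖co T Y‖ ^ 2) :=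
    (hC.gd hw hτ.le hG (co T).continuous).norm.pow 2
  have i1 := hC.intg H gtr hp.continuous hp.zero hτ le_rfl
  have i2 := hC.intg H grh hp.cont (fun s hs => hp.zero' hs) hτ le_rfl
  have i3 := hC.intg H ge hp.continuous hp.zero hτ le_rfl
  have i4 := gd_integrable_ind hw gu (c := τ ^ 2) le_rfl
  -- the integrated identity
  have hI : ∫ Y, (chi lam (aX T w z Y / τ ^ 2) ^ 2 * trJ T w h₁ P (om T w) Y + 2 / τ ^ 2 *
      (2 * chi lam (aX T w z Y / τ ^ 2) * chi' lam (aX T w z Y / τ ^ 2) *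
        ⟪rh T w h₁ z Y, P Y (om T w Y)⟫)) ∂ν = 0 := by
    rw [integral_add i1 (i2.const_mul _), integral_const_mul]
    unfold kI at hrad
    rw [hrad]
    ring
  have iI : Integrable (fun Y => chi lam (aX T w z Y / τ ^ 2) ^ 2 * trJ T w h₁ P (om T w) Y +
      2 / τ ^ 2 * (2 * chi lam (aX T w z Y / τ ^ 2) * chi' lam (aX T w z Y / τ ^ 2) *
        ⟪rh T w h₁ z Y, P Y (om T w Y)⟫)) ν := i1.add (i2.const_mul (2 / τ ^ 2))
  -- pointwise bound
  have hpt : ∀ᵐ Y ∂ν, chi lam (aX T w z Y / τ ^ 2) ^ 2 * eS T w Y (P Y) ≤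
      4 * (chi lam (aX T w z Y / τ ^ 2) ^ 2 * trJ T w h₁ P (om T w) Y + 2 / τ ^ 2 *
      (2 * chi lam (aX T w z Y / τ ^ 2) * chi' lam (aX T w z Y / τ ^ 2) *
        ⟪rh T w h₁ z Y, P Y (om T w Y)⟫)) +
      (8 * N * κ ^ 2 + 164 * q ^ 2 / τ ^ 2) *
        {Y | aX T w z Y < τ ^ 2}.indicator (fun Y => ‖co T Y‖ ^ 2) Y := by
    filter_upwards [hC.proj, hC.slab_lt hw hτ.le hG] with Y hY h2
    by_cases h3 : aX T w z Y < τ ^ 2
    · obtain ⟨S, hm, hS⟩ := hY
      have hmem : T.starProjection Y ∈ G' := hG' _ (T.starProjection_apply_mem Y) (by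
        rw [← bx_eq]; exact (hw.norm_bx_lt hτ.le h3).le)
      have a1 := le_trJ_om H (h2 h3).2 (hmin Y hmem) (hm.trans hC.dimT.symm) hS
      have a2 := abs_inner_rh_P_om_le H z Y S
      rw [← hS] at a2
      have hx : ‖XX T w z Y‖ ≤ τ := by
        have : ‖XX T w z Y‖ ^ 2 < τ ^ 2 := h3
        exact (lt_of_pow_lt_pow_left₀ 2 hτ.le this).le
      have he0 : 0 ≤ eS T w Y (P Y) := by rw [hS]; exact tilt_nonneg S _
      have a3 := alg_cacc (c := chi lam (aX T w z Y / τ ^ 2)) (chi_nonneg _ _) he0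
        (norm_nonneg (co T Y)) hτ (norm_nonneg _) hx a1 a2
        (abs_chi'_le hl1 (aX T w z Y / τ ^ 2))
      rw [indicator_of_mem (show Y ∈ {Y | aX T w z Y < τ ^ 2} from h3)]
      refine a3.trans ?_
      have a4 : chi lam (aX T w z Y / τ ^ 2) ^ 2 * (8 * N * κ ^ 2 * ‖co T Y‖ ^ 2) ≤
          1 * (8 * N * κ ^ 2 * ‖co T Y‖ ^ 2) := by
        gcongr
        have := chi_le_one lam (aX T w z Y / τ ^ 2)
        have := chi_nonneg lam (aX T w z Y / τ ^ 2)
        nlinarith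
      linarith
    · have h4 : 1 ≤ aX T w z Y / τ ^ 2 := by
        rw [one_le_div (by positivity)]; exact not_lt.1 h3
      rw [chi_eq_zero hl1 h4, indicator_of_notMem (show Y ∉ {Y | aX T w z Y < τ ^ 2} from h3)]
      simp
  have iI' := iI.const_mul 4
  have i5 := i4.const_mul (8 * N * κ ^ 2 + 164 * q ^ 2 / τ ^ 2)
  have h5 := integral_mono_ae i3 (iI'.add i5) hpt
  have h6 : ∫ Y, (4 * ((chi lam (aX T w z Y / τ ^ 2) ^ 2 * trJ T w h₁ P (om T w) Y) +
      2 / τ ^ 2 * (2 * chi lam (aX T w z Y / τ ^ 2) * chi' lam (aX T w z Y / τ ^ 2) *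
        ⟪rh T w h₁ z Y, P Y (om T w Y)⟫)) + (8 * N * κ ^ 2 + 164 * q ^ 2 / τ ^ 2) *
        {Y | aX T w z Y < τ ^ 2}.indicator (fun Y => ‖co T Y‖ ^ 2) Y) ∂ν =
      (8 * N * κ ^ 2 + 164 * q ^ 2 / τ ^ 2) * ∫ Y in {Y | aX T w z Y < τ ^ 2}, ‖co T Y‖ ^ 2 ∂ν := by
    rw [integral_add iI' i5, integral_const_mul, integral_const_mul,
      integral_indicator (measurableSet_ball hw z _), hI, mul_zero, zero_add]
  have h5' := h5.trans_eq h6
  -- the left-hand side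
  have h7 : ∫ Y in {Y | aX T w z Y < s ^ 2}, eS T w Y (P Y) ∂ν ≤
      ∫ Y, chi lam (aX T w z Y / τ ^ 2) ^ 2 * eS T w Y (P Y) ∂ν := by
    rw [← integral_indicator (measurableSet_ball hw z _)]
    refine integral_mono_ae (gd_integrable_ind hw ge (by gcongr)) i3 ?_
    filter_upwards [eS_nonneg hC] with Y hY
    by_cases h3 : aX T w z Y < s ^ 2
    · rw [indicator_of_mem (show Y ∈ {Y | aX T w z Y < s ^ 2} from h3)]
      have : aX T w z Y / τ ^ 2 ≤ lam := by rw [hlam]; gcongr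
      simp only [chi_eq_one hl1 this, one_pow, one_mul, le_refl]
    · rw [indicator_of_notMem (show Y ∉ {Y | aX T w z Y < s ^ 2} from h3)]
      exact mul_nonneg (sq_nonneg _) hY
  refine h7.trans (h5'.trans ?_)
  have h8 : 0 ≤ ∫ Y in {Y | aX T w z Y < τ ^ 2}, ‖co T Y‖ ^ 2 ∂ν :=
    integral_nonneg fun _ => sq_nonneg _
  refine mul_le_mul_of_nonneg_right ?_ h8
  have : 164 * q ^ 2 / τ ^ 2 = 164 * (q ^ 2 / τ ^ 2) := by ring
  rw [this]
  have : 164 * cT ^ 2 / (τ - s) ^ 2 = 164 * (cT ^ 2 / (τ - s) ^ 2) := by ring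
  rw [this]
  gcongr

end Vale.Agent.P214.RC2X
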