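import Vale.Agent.P214.RC2X.Rate

/-!
# P214, block RC2X: the lemmas at one scale for test functions below the kernel

`rate_ker` : for `0 ≤ f ≤ M' k(aX/t²)`, `f/M` a test function,
`2 t^{2-m} FSig f ≤ 2 M (log 1/S)^{-A} S t² + 4 C M' (κ t)² HF(t)`.
-/

open Set Filter Topology MeasureTheory Metric
open scoped RealInnerProductSpace ContDiff

set_option linter.all false

namespace Vale.Agent.P214.RC2X

open FV ODE FM

variable {E : Type*} [NormedAddCommGroup E] [InnerProductSpace ℝ E] [FiniteDimensional ℝ E]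
  [MeasurableSpace E] [BorelSpace E]

/-- the height integral of a function below the kernel -/
lemma int_le_HF {m : ℕ} {T : Submodule ℝ E} {w : E → E} {ε κ h₁ : ℝ} {G : Set E} {h' : ℝ}
    {μ : Measure E} {P : E → E →L[ℝ] E} {z : E} {k k' K : ℝ → ℝ} {t M' : ℝ} {f : E → ℝ}
    (H : Adm T w ε κ h₁) (hC : CylF m T w h₁ G h' μ P) (hk : Kern k k' K) (ht : 0 < t)
    (hG : BallIn T G z t) (hM : 0 ≤ M') (hf0 : ∀ x, 0 ≤ f x)
    (hf : ∀ x, f (T.starProjection x) ≤ M' * k (aX T w z x / t ^ 2)) :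
    t ^ (-(m : ℤ)) * ∫ Y, f (T.starProjection Y) * ‖co T Y‖ ^ 2 ∂μ ≤
      2 * M' * HF m T w z k μ t := by
  haveI := hC.fin
  have hw := H.ref
  have gvo : Gd (aX T w z) μ t (fun Y => vp T w z Y * ‖om T w Y‖ ^ 2) :=
    (hC.gd_vp H).mul ((hC.gd hw ht.le hG hw.contDiff_om.continuous).norm.pow 2)
  have h1 : ∫ Y, f (T.starProjection Y) * ‖co T Y‖ ^ 2 ∂μ ≤
      2 * M' * kI T w z μ k (fun Y => vp T w z Y * ‖om T w Y‖ ^ 2) t := by
    unfold kI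
    rw [← integral_const_mul]
    refine integral_mono_of_nonneg (Eventually.of_forall fun Y =>
        mul_nonneg (hf0 _) (sq_nonneg _))
      ((hC.intg H gvo hk.pk.continuous hk.pk.zero ht le_rfl).const_mul _)
      (Eventually.of_forall fun Y => ?_)
    have h6 := hw.half_le_vp H.eps_le z Y
    have h7 : ‖co T Y‖ ^ 2 ≤ ‖om T w Y‖ ^ 2 := (norm_sq_om H Y).1
    have h8 := hk.nonneg (aX T w z Y / t ^ 2)
    calc f (T.starProjection Y) * ‖co T Y‖ ^ 2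
        ≤ (M' * k (aX T w z Y / t ^ 2)) * ‖om T w Y‖ ^ 2 := by
          gcongr
          exact hf Y
      _ = 2 * M' * (k (aX T w z Y / t ^ 2) * (1 / 2 * ‖om T w Y‖ ^ 2)) := by ring
      _ ≤ 2 * M' * (k (aX T w z Y / t ^ 2) * (vp T w z Y * ‖om T w Y‖ ^ 2)) := by gcongr
  have h0 : 0 ≤ t ^ (-(m : ℤ)) := by positivity
  calc _ ≤ t ^ (-(m : ℤ)) *
        (2 * M' * kI T w z μ k (fun Y => vp T w z Y * ‖om T w Y‖ ^ 2) t) := by gcongr
    _ = _ := by unfold HF; ring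

/-- **Rate at one scale, functions below the kernel.** -/
theorem rate_ker {m Q : ℕ} (hRC : LOCF.RateCurved E m Q) {k k' K : ℝ → ℝ} (hk : Kern k k' K)
    {ck : ℝ} (hck : 0 < ck) (hlow : KerLow ck k) (A p : ℕ) :
    ∃ C δ S₀ : ℝ, 0 < C ∧ 0 < δ ∧ 0 < S₀ ∧ S₀ < 1 ∧ ∀ (T : Submodule ℝ E) (w : E → E)
      (ε κ h₁ : ℝ) (z : E) (t d S h : ℝ) (G : Set E) (h' : ℝ) (ν : Measure E)
      (P : E → E →L[ℝ] E) (f : E → ℝ) (M M' : ℝ),
      Inp m Q T w ε κ h₁ z t d S k h δ G h' ν P → S ≤ S₀ → ((Real.log S⁻¹)⁻¹) ^ p ≤ d →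
      0 < M → 0 ≤ M' → LOCF.Test3 T w z t (fun x => M⁻¹ * f x) →
      (∀ x, f (T.starProjection x) ≤ M' * k (aX T w z x / t ^ 2)) →
      2 * t ^ (2 - (m : ℤ)) * FSig m Q T w (fmeas T w h₁ ν) (fP T w h₁ P) f ≤
        4 * C * M' * (κ * t) ^ 2 * HF m T w z k (fmeas T w h₁ ν) t +
          2 * M * (((Real.log S⁻¹)⁻¹) ^ A * S * t ^ 2) := by
  obtain ⟨C, δ, S₀, hC, hδ, hS₀, hS₀1, hmain⟩ := rate_at hRC hk hck hlow A p
  refine ⟨C, δ, S₀, hC, hδ, hS₀, hS₀1, ?_⟩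
  intro T w ε κ h₁ z t d S h G h' ν P f M M' I hSS hLd hM hM' hT hf
  have h1 := hmain T w ε κ h₁ z t d S h G h' ν P f M I hSS hLd hM hT
  have ht := I.tpos
  have hf0 : ∀ x, 0 ≤ f x := fun x => by
    have h2 := hT.nonneg x
    have h3 : f x = M * (M⁻¹ * f x) := by field_simp
    rw [h3]; exact mul_nonneg hM.le h2
  have h2 := int_le_HF (m := m) (P := fP T w h₁ P) I.conf.adm I.cylF hk ht
    (BallIn.mono I.ball (by nlinarith [I.dpos])) hM' hf0 hf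
  have h3 : C * (κ * t) ^ 2 * (t ^ (-(m : ℤ)) *
      ∫ Y, f (T.starProjection Y) * ‖co T Y‖ ^ 2 ∂(fmeas T w h₁ ν)) ≤
      C * (κ * t) ^ 2 * (2 * M' * HF m T w z k (fmeas T w h₁ ν) t) := by gcongr
  linarith

/-- **Area at one scale, functions below the kernel.** -/
theorem area_ker {m Q : ℕ} (hAC : LOCF.AreaCurved E m Q) {k k' K : ℝ → ℝ} (hk : Kern k k' K)
    {ck : ℝ} (hck : 0 < ck) (hlow : KerLow ck k) (p : ℕ) :
    ∃ C δ S₀ : ℝ, 0 < C ∧ 0 < δ ∧ 0 < S₀ ∧ S₀ < 1 ∧ ∀ (T : Submodule ℝ E) (w : E → E)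
      (ε κ h₁ : ℝ) (z : E) (t d S h : ℝ) (G : Set E) (h' : ℝ) (ν : Measure E)
      (P : E → E →L[ℝ] E) (f : E → ℝ) (M M' : ℝ),
      Inp m Q T w ε κ h₁ z t d S k h δ G h' ν P → S ≤ S₀ → ((Real.log S⁻¹)⁻¹) ^ p ≤ d →
      0 < M → 0 ≤ M' → LOCF.Test3 T w z t (fun x => M⁻¹ * f x) →
      (∀ x, f (T.starProjection x) ≤ M' * k (aX T w z x / t ^ 2)) →
      |2 * t ^ (2 - (m : ℤ)) * FSig m Q T w (fmeas T w h₁ ν) (fP T w h₁ P) f| ≤
        4 * C * M' * (κ * t) ^ 2 * HF m T w z k (fmeas T w h₁ ν) t +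
          2 * M * C * ((Real.log S⁻¹) ^ (p * (m + 5) + 1) * S * t ^ 2) := by
  obtain ⟨C, δ, S₀, hC, hδ, hS₀, hS₀1, hmain⟩ := area_at hAC hk hck hlow p
  refine ⟨C, δ, S₀, hC, hδ, hS₀, hS₀1, ?_⟩
  intro T w ε κ h₁ z t d S h G h' ν P f M M' I hSS hLd hM hM' hT hf
  have h1 := hmain T w ε κ h₁ z t d S h G h' ν P f M I hSS hLd hM hT
  have ht := I.tpos
  have hf0 : ∀ x, 0 ≤ f x := fun x => by
    have h2 := hT.nonneg x
    have h3 : f x = M * (M⁻¹ * f x) := by field_simp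
    rw [h3]; exact mul_nonneg hM.le h2
  have h2 := int_le_HF (m := m) (P := fP T w h₁ P) I.conf.adm I.cylF hk ht
    (BallIn.mono I.ball (by nlinarith [I.dpos])) hM' hf0 hf
  have h3 : C * (κ * t) ^ 2 * (t ^ (-(m : ℤ)) *
      ∫ Y, f (T.starProjection Y) * ‖co T Y‖ ^ 2 ∂(fmeas T w h₁ ν)) ≤
      C * (κ * t) ^ 2 * (2 * M' * HF m T w z k (fmeas T w h₁ ν) t) := by gcongr
  have h4 : |2 * t ^ (2 - (m : ℤ)) * FSig m Q T w (fmeas T w h₁ ν) (fP T w h₁ P) f| =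
      2 * (t ^ (2 - (m : ℤ)) * |FSig m Q T w (fmeas T w h₁ ν) (fP T w h₁ P) f|) := by
    rw [abs_mul, abs_mul, abs_of_pos (show 0 < t ^ (2 - (m : ℤ)) by positivity), abs_two]
    ring
  rw [h4]
  linarith

end Vale.Agent.P214.RC2X
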