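import Vale.Agent.P214.WIN.Real

/-!
# P214, block RC2X: absorption of polynomial-logarithmic losses
-/

open Filter Topology Set

namespace Vale.Agent.P214.RC2X

open Vale.Agent.P214.WIN

/-- `M (log 1/S)^N S^a ≤ 1` for small `S` -/
lemma ev_log_pow (M : ℝ) (N : ℕ) {a : ℝ} (ha : 0 < a) :
    ∀ᶠ S : ℝ in 𝓝[>] 0, M * (Real.log S⁻¹) ^ N * S ^ a ≤ 1 := by
  set q : ℝ := a / (2 * (N + 1)) with hq
  have hN : (0:ℝ) ≤ N := Nat.cast_nonneg N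
  have hq0 : 0 < q := by positivity
  have hb : 0 < a - q * N := by
    have : q * N ≤ a / 2 := by
      rw [hq, div_mul_eq_mul_div, div_le_div_iff₀ (by positivity) (by norm_num)]
      nlinarith
    linarith
  filter_upwards [ev_small' (|M| * (q⁻¹) ^ N) hb one_pos, ev_lt (c := 1) one_pos,
    self_mem_nhdsWithin] with S h1 h2 h3
  have hS : (0:ℝ) < S := h3
  have hlog : 0 ≤ Real.log S⁻¹ := Real.log_nonneg ((one_le_inv₀ hS).2 h2)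
  have h4 := log_inv_le hS hq0
  have h5 : (Real.log S⁻¹) ^ N ≤ (q⁻¹) ^ N * S ^ (-(q * N)) := by
    calc (Real.log S⁻¹) ^ N ≤ (S ^ (-q) / q) ^ N := by gcongr
      _ = (q⁻¹) ^ N * (S ^ (-q)) ^ N := by rw [div_eq_mul_inv, mul_pow, mul_comm]
      _ = _ := by
          rw [← Real.rpow_natCast (S ^ (-q)), ← Real.rpow_mul hS.le]
          congr 2
          ring
  have hSa : 0 ≤ S ^ a := Real.rpow_nonneg hS.le _
  calc M * (Real.log S⁻¹) ^ N * S ^ a ≤ |M| * (Real.log S⁻¹) ^ N * S ^ a := by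
        gcongr; exact le_abs_self M
    _ ≤ |M| * ((q⁻¹) ^ N * S ^ (-(q * N))) * S ^ a := by gcongr
    _ = |M| * (q⁻¹) ^ N * S ^ (a - q * N) := by
        rw [show a - q * N = -(q * N) + a by ring, Real.rpow_add hS]
        ring
    _ ≤ 1 := h1

/-- `log 1/S` is large for small `S` -/
lemma ev_log_ge (M : ℝ) : ∀ᶠ S : ℝ in 𝓝[>] 0, M ≤ Real.log S⁻¹ := by
  filter_upwards [ev_lt (c := Real.exp (-M)) (Real.exp_pos _), self_mem_nhdsWithin] with S h1 h2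
  have hS : (0:ℝ) < S := h2
  rw [Real.log_inv]
  have := Real.log_le_log hS h1
  rw [Real.log_exp] at this
  linarith

/-- **Absorption.** `Eb = Cf d^{-n} S` with `(log 1/S)^{-p} ≤ d`. -/
theorem absorb (p n A : ℕ) {Cf C c δ c₀ : ℝ} (hCf : 0 < Cf) (hc : 0 < c) (hδ : 0 < δ)
    (hc₀ : 0 < c₀) : ∃ S₀ : ℝ, 0 < S₀ ∧ S₀ < 1 ∧ ∀ S d : ℝ, 0 < S → S ≤ S₀ → 0 < d →
      ((Real.log S⁻¹)⁻¹) ^ p ≤ d →
      1 ≤ Real.log S⁻¹ ∧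
      S ≤ c₀ * d ^ n ∧ Cf * (d⁻¹) ^ n * S ≤ δ ∧ (Cf * (d⁻¹) ^ n * S) ^ c ≤ d ∧
      Cf * (d⁻¹) ^ n * S ≤ (Real.log S⁻¹) ^ (p * n + 1) * S ∧
      √(Cf * (d⁻¹) ^ n * S) < S ^ (1 / 4 : ℝ) ∧
      C * (Real.log (Cf * (d⁻¹) ^ n * S)⁻¹) ^ (-((p * n + A + 1 : ℕ) : ℝ)) *
        (Cf * (d⁻¹) ^ n * S) ≤ ((Real.log S⁻¹)⁻¹) ^ A * S := by
  have h : ∀ᶠ S : ℝ in 𝓝[>] 0, S ≤ 1 / 2 ∧ 1 ≤ Real.log S⁻¹ ∧
      c₀⁻¹ * (Real.log S⁻¹) ^ (p * n) * S ^ (1:ℝ) ≤ 1 ∧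
      2 * Cf * (Real.log S⁻¹) ^ (p * n) * S ^ (1 / 2 : ℝ) ≤ 1 ∧ S ^ (1 / 2 : ℝ) ≤ δ ∧
      1 * (Real.log S⁻¹) ^ p * S ^ (c / 2) ≤ 1 ∧ Cf ≤ Real.log S⁻¹ ∧
      |C| * Cf * 2 ^ (p * n + A + 1) ≤ Real.log S⁻¹ := by
    filter_upwards [ev_lt (c := 1 / 2) (by norm_num), ev_log_ge 1,
      ev_log_pow c₀⁻¹ (p * n) one_pos, ev_log_pow (2 * Cf) (p * n) (a := 1 / 2) (by norm_num),
      ev_small (a := 1 / 2) (c := δ) (by norm_num) hδ, ev_log_pow 1 p (a := c / 2) (by positivity),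
      ev_log_ge Cf, ev_log_ge (|C| * Cf * 2 ^ (p * n + A + 1))] with S a1 a2 a3 a4 a5 a6 a7 a8
    exact ⟨a1, a2, a3, a4, a5, a6, a7, a8⟩
  obtain ⟨S₀, hS₀, hp⟩ := exists_of_ev h
  refine ⟨min S₀ (1 / 2), by positivity, (min_le_right _ _).trans_lt (by norm_num), ?_⟩
  intro S d hS hSS hd hLd
  obtain ⟨b1, b2, b3, b4, b5, b6, b7, b8⟩ := hp S hS (hSS.trans (min_le_left _ _))
  set Λ := Real.log S⁻¹ with hΛ
  have hΛ0 : 0 < Λ := by linarith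
  have hdinv : d⁻¹ ≤ Λ ^ p := by
    rw [inv_le_comm₀ hd (by positivity), ← inv_pow]; exact hLd
  have hdn : (d⁻¹) ^ n ≤ Λ ^ (p * n) := by
    rw [pow_mul]; gcongr
  set Eb := Cf * (d⁻¹) ^ n * S with hEb
  have hEb0 : 0 < Eb := by positivity
  have hE1 : Eb ≤ Cf * Λ ^ (p * n) * S := by rw [hEb]; gcongr
  have hSh : S = S ^ (1 / 2 : ℝ) * S ^ (1 / 2 : ℝ) := by
    rw [← Real.rpow_add hS]; norm_num
  have hsq : 0 ≤ S ^ (1 / 2 : ℝ) := Real.rpow_nonneg hS.le _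
  have hsq' : 0 < S ^ (1 / 2 : ℝ) := Real.rpow_pos_of_pos hS _
  have hE3 : 2 * Eb ≤ S ^ (1 / 2 : ℝ) := by
    calc 2 * Eb ≤ 2 * (Cf * Λ ^ (p * n) * S) := by gcongr
      _ = (2 * Cf * Λ ^ (p * n) * S ^ (1 / 2 : ℝ)) * S ^ (1 / 2 : ℝ) := by
          conv_lhs => rw [hSh]
          ring
      _ ≤ 1 * S ^ (1 / 2 : ℝ) := by gcongr
      _ = _ := one_mul _
  have hE2 : Eb ≤ S ^ (1 / 2 : ℝ) := by linarith
  refine ⟨b2, ?_, hE2.trans b5, ?_, ?_, ?_, ?_⟩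
  · -- `S ≤ c₀ d ^ n`
    rw [Real.rpow_one] at b3
    have h1 : (Λ ^ (p * n))⁻¹ ≤ d ^ n := by
      have := inv_anti₀ (by positivity) hdn
      rwa [inv_pow, inv_inv] at this
    have h2 : S ≤ c₀ * (Λ ^ (p * n))⁻¹ := by
      rw [← div_eq_mul_inv, le_div_iff₀ (by positivity)]
      have h3 : c₀ * (c₀⁻¹ * Λ ^ (p * n) * S) ≤ c₀ * 1 := by gcongr
      have h4 : c₀ * (c₀⁻¹ * Λ ^ (p * n) * S) = S * Λ ^ (p * n) := by field_simp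
      linarith
    exact h2.trans (by gcongr)
  · -- `Eb ^ c ≤ d`
    have h1 : Eb ^ c ≤ (S ^ (1 / 2 : ℝ)) ^ c := Real.rpow_le_rpow hEb0.le hE2 hc.le
    have h2 : (S ^ (1 / 2 : ℝ)) ^ c = S ^ (c / 2) := by
      rw [← Real.rpow_mul hS.le]; congr 1; ring
    rw [h2] at h1
    refine h1.trans (le_trans ?_ hLd)
    rw [inv_pow, ← one_div, le_div_iff₀ (by positivity)]
    linarith
  · refine hE1.trans ?_
    rw [pow_succ]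
    have : 0 ≤ Λ ^ (p * n) := by positivity
    calc Cf * Λ ^ (p * n) * S ≤ Λ * Λ ^ (p * n) * S := by gcongr
      _ = _ := by ring
  · rw [Real.sqrt_lt' (Real.rpow_pos_of_pos hS _), ← Real.rpow_natCast, ← Real.rpow_mul hS.le]
    norm_num
    linarith
  · have hlogE : Λ / 2 ≤ Real.log Eb⁻¹ := by
      rw [Real.log_inv]
      have h1 := Real.log_le_log hEb0 hE2
      rw [Real.log_rpow hS] at h1
      have h2 : Λ = -Real.log S := by rw [hΛ, Real.log_inv]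
      rw [h2]; linarith
    set B : ℕ := p * n + A + 1 with hB
    have h1 : (Real.log Eb⁻¹) ^ (-(B : ℝ)) ≤ 2 ^ B * (Λ⁻¹) ^ B := by
      have h2 : (Real.log Eb⁻¹) ^ (-(B : ℝ)) ≤ (Λ / 2) ^ (-(B : ℝ)) :=
        Real.rpow_le_rpow_of_nonpos (by positivity) hlogE (by
          have : (0:ℝ) ≤ B := Nat.cast_nonneg B
          linarith)
      refine h2.trans (le_of_eq ?_)
      rw [Real.rpow_neg (by positivity), Real.rpow_natCast, div_pow, inv_pow, inv_div]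
      ring
    have h3 : 0 ≤ (Real.log Eb⁻¹) ^ (-(B : ℝ)) := Real.rpow_nonneg (by linarith) _
    calc C * (Real.log Eb⁻¹) ^ (-(B : ℝ)) * Eb ≤ |C| * (Real.log Eb⁻¹) ^ (-(B : ℝ)) * Eb := by
          gcongr; exact le_abs_self C
      _ ≤ |C| * (2 ^ B * (Λ⁻¹) ^ B) * (Cf * Λ ^ (p * n) * S) := by gcongr
      _ = (|C| * Cf * 2 ^ B) * Λ⁻¹ * ((Λ⁻¹) ^ A * S) := by
          have e1 : (Λ⁻¹) ^ B = (Λ⁻¹) ^ (p * n) * (Λ⁻¹) ^ A * Λ⁻¹ := by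
            rw [hB, pow_add, pow_add, pow_one]
          rw [e1]
          have e2 : (Λ⁻¹) ^ (p * n) * Λ ^ (p * n) = 1 := by
            rw [inv_pow]; field_simp
          calc _ = |C| * Cf * 2 ^ B * Λ⁻¹ * ((Λ⁻¹) ^ A * S) *
                ((Λ⁻¹) ^ (p * n) * Λ ^ (p * n)) := by ring
            _ = _ := by rw [e2, mul_one]
      _ ≤ Λ * Λ⁻¹ * ((Λ⁻¹) ^ A * S) := by gcongr
      _ = _ := by rw [mul_inv_cancel₀ hΛ0.ne', one_mul]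

/-- change of the size parameter: `S' ≤ C₀ S` -/
theorem absorb' (A : ℕ) {C₀ : ℝ} (hC₀ : 0 < C₀) : ∃ S₀ : ℝ, 0 < S₀ ∧ S₀ < 1 ∧ ∀ S S' : ℝ,
    0 < S → S ≤ S₀ → 0 < S' → S' ≤ C₀ * S →
      ((Real.log S'⁻¹)⁻¹) ^ (A + 1) * S' ≤ ((Real.log S⁻¹)⁻¹) ^ A * S := by
  -- for `S' ≤ C₀ S`: `log 1/S' ≥ log 1/S - log C₀ ≥ (log 1/S)/2`
  have h : ∀ᶠ S : ℝ in 𝓝[>] 0, S ≤ 1 / 2 ∧ 1 ≤ Real.log S⁻¹ ∧
      2 * |Real.log C₀| ≤ Real.log S⁻¹ ∧ C₀ * 2 ^ (A + 1) ≤ Real.log S⁻¹ := by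
    filter_upwards [ev_lt (c := 1 / 2) (by norm_num), ev_log_ge 1,
      ev_log_ge (2 * |Real.log C₀|), ev_log_ge (C₀ * 2 ^ (A + 1))] with S a1 a2 a3 a4
    exact ⟨a1, a2, a3, a4⟩
  obtain ⟨S₀, hS₀, hp⟩ := exists_of_ev h
  refine ⟨min S₀ (1 / 2), by positivity, (min_le_right _ _).trans_lt (by norm_num), ?_⟩
  intro S S' hS hSS hS' hSC
  obtain ⟨b1, b2, b3, b4⟩ := hp S hS (hSS.trans (min_le_left _ _))
  set Λ := Real.log S⁻¹ with hΛ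
  have hΛ0 : 0 < Λ := by linarith
  have h1 : Λ / 2 ≤ Real.log S'⁻¹ := by
    have h2 := Real.log_le_log hS' hSC
    rw [Real.log_mul hC₀.ne' hS.ne'] at h2
    have h3 : Λ = -Real.log S := by rw [hΛ, Real.log_inv]
    rw [Real.log_inv]
    have := le_abs_self (Real.log C₀)
    linarith
  have h2 : (Real.log S'⁻¹)⁻¹ ≤ 2 * Λ⁻¹ := by
    have h3 : (Real.log S'⁻¹)⁻¹ ≤ (Λ / 2)⁻¹ := by gcongr
    rw [inv_div] at h3
    rwa [div_eq_mul_inv] at h3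
  have h0 : 0 ≤ (Real.log S'⁻¹)⁻¹ := by
    have : 0 < Real.log S'⁻¹ := by linarith
    positivity
  calc ((Real.log S'⁻¹)⁻¹) ^ (A + 1) * S' ≤ (2 * Λ⁻¹) ^ (A + 1) * (C₀ * S) := by gcongr
    _ = (C₀ * 2 ^ (A + 1)) * Λ⁻¹ * ((Λ⁻¹) ^ A * S) := by rw [mul_pow, pow_succ Λ⁻¹]; ring
    _ ≤ Λ * Λ⁻¹ * ((Λ⁻¹) ^ A * S) := by gcongr
    _ = _ := by rw [mul_inv_cancel₀ hΛ0.ne', one_mul]

end Vale.Agent.P214.RC2X
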