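import Vale.Agent.P214.RC2X.Fine
import Vale.Agent.P214.RC2X.Real

/-!
# P214, block RC2X: the curved rate and area lemmas at one scale

* `fine_of` : `Inp` gives `LOCF.Fine` with `Eb = C d^{-(m+5)} S`;
* `rate_at` : `t^{2-m} FSig f ≤ M ((log 1/S)^{-A} S t²) + C κ² t² t^{-m} ∫ f |u|²`;
* `area_at` : the two-sided bound without rate;
* `small_at` : sup bound and energy at scale `t`, and their product.
-/

open Set Filter Topology MeasureTheory Metric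
open scoped RealInnerProductSpace ContDiff

set_option linter.all false

namespace Vale.Agent.P214.RC2X

open FV ODE FM

variable {E : Type*} [NormedAddCommGroup E] [InnerProductSpace ℝ E] [FiniteDimensional ℝ E]
  [MeasurableSpace E] [BorelSpace E]

/-- constant of the fine bounds -/
noncomputable def Cf (m N : ℕ) (ck : ℝ) : ℝ := C2 m ck + C3 m N ck + C1 m ck

lemma Cf_pos {m : ℕ} {ck : ℝ} (N : ℕ) (hck : 0 < ck) : 0 < Cf m N ck := by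
  have := C1_pos (m := m) hck
  have := C2_pos (m := m) hck
  have := C3_nonneg (m := m) N hck
  unfold Cf; linarith

section

variable {m Q : ℕ} {T : Submodule ℝ E} {w : E → E} {ε κ h₁ : ℝ} {G : Set E} {h h' δ : ℝ}
  {ν : Measure E} {P : E → E →L[ℝ] E} {z : E} {k k' K : ℝ → ℝ} {t d S ck : ℝ}

/-- the fine information -/
theorem fine_of (I : Inp m Q T w ε κ h₁ z t d S k h δ G h' ν P) (hk : Kern k k' K) (hck : 0 < ck)
    (hlow : KerLow ck k) (hS : S ≤ c0 m ck * d ^ (m + 5))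
    (hE : √(Cf m (Module.finrank ℝ E) ck * (d⁻¹) ^ (m + 5) * S) < S ^ (1 / 4 : ℝ)) :
    LOCF.Fine m T w h₁ z t d (Cf m (Module.finrank ℝ E) ck * (d⁻¹) ^ (m + 5) * S) ν P := by
  have ht := I.tpos
  have hd := I.dpos
  have hdl := I.dle
  have hS0 := I.Spos
  have h1 := C1_pos (m := m) hck
  have h2 := C2_pos (m := m) hck
  have h3 := C3_nonneg (m := m) (Module.finrank ℝ E) hck
  have hCf := Cf_pos (m := m) (Module.finrank ℝ E) hck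
  have hdi : (1:ℝ) ≤ d⁻¹ := (one_le_inv₀ hd).2 (by linarith)
  refine ⟨by positivity, by linarith, ?_, ?_, ?_, ?_⟩
  · intro y hy
    refine I.min y (I.ball _ (T.starProjection_apply_mem y) ?_)
    rw [mem_ball, dist_eq_norm] at hy
    rw [Submodule.starProjection_eq_self_iff.2 I.conf.cyl.mem]
    nlinarith
  · have h4 := I.energy_le hk hck hlow
    have h5 : {Y | aX T w z Y < ((1 + d) * t) ^ 2} = LOCF.adB T w z ((1 + d) * t) := by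
      ext Y
      exact ⟨fun h => lt_of_aX (by positivity) h, fun h => aX_lt h⟩
    rw [h5] at h4
    refine h4.trans ?_
    have h6 : (d⁻¹) ^ 5 ≤ (d⁻¹) ^ (m + 5) := pow_le_pow_right₀ hdi (by omega)
    have h7 : C3 m (Module.finrank ℝ E) ck ≤ Cf m (Module.finrank ℝ E) ck := by unfold Cf; linarith
    gcongr
  · filter_upwards [I.sup_le hk hck hlow hS] with Y hY h4
    refine (hY (aX_lt h4)).trans ?_
    have h6 : (d⁻¹) ^ (m + 3) ≤ (d⁻¹) ^ (m + 5) := pow_le_pow_right₀ hdi (by omega)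
    have h7 : C2 m ck ≤ Cf m (Module.finrank ℝ E) ck := by unfold Cf; linarith
    gcongr
  · refine lt_of_lt_of_le ?_ I.tube
    gcongr

lemma FSig_const_mul (m Q : ℕ) (T : Submodule ℝ E) (w : E → E) (ν : Measure E)
    (P : E → E →L[ℝ] E) (c : ℝ) (φ : E → ℝ) :
    FSig m Q T w ν P (fun x => c * φ x) = c * FSig m Q T w ν P φ := by
  unfold FSig
  have h1 : ∫ Y, c * φ (T.starProjection Y) * (1 - eS T w Y (P Y) / 2) ∂ν =
      c * ∫ Y, φ (T.starProjection Y) * (1 - eS T w Y (P Y) / 2) ∂ν := by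
    rw [← integral_const_mul]
    exact integral_congr_ae (Eventually.of_forall fun Y => by ring)
  have h2 : ∫ x in (T : Set E), c * φ x * areaEl w x ∂μH[m] =
      c * ∫ x in (T : Set E), φ x * areaEl w x ∂μH[m] := by
    rw [← integral_const_mul]
    exact integral_congr_ae (Eventually.of_forall fun Y => by ring)
  simp only
  rw [h1, h2]
  ring

end

/-- **Rate at one scale.** -/
theorem rate_at {m Q : ℕ} (hRC : LOCF.RateCurved E m Q) {k k' K : ℝ → ℝ} (hk : Kern k k' K)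
    {ck : ℝ} (hck : 0 < ck) (hlow : KerLow ck k) (A p : ℕ) :
    ∃ C δ S₀ : ℝ, 0 < C ∧ 0 < δ ∧ 0 < S₀ ∧ S₀ < 1 ∧ ∀ (T : Submodule ℝ E) (w : E → E)
      (ε κ h₁ : ℝ) (z : E) (t d S h : ℝ) (G : Set E) (h' : ℝ) (ν : Measure E)
      (P : E → E →L[ℝ] E) (f : E → ℝ) (M : ℝ),
      Inp m Q T w ε κ h₁ z t d S k h δ G h' ν P → S ≤ S₀ → ((Real.log S⁻¹)⁻¹) ^ p ≤ d → 0 < M →
      LOCF.Test3 T w z t (fun x => M⁻¹ * f x) →
      t ^ (2 - (m : ℤ)) * FSig m Q T w (fmeas T w h₁ ν) (fP T w h₁ P) f ≤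
        M * (((Real.log S⁻¹)⁻¹) ^ A * S * t ^ 2) + C * (κ * t) ^ 2 *
          (t ^ (-(m : ℤ)) * ∫ Y, f (T.starProjection Y) * ‖co T Y‖ ^ 2 ∂(fmeas T w h₁ ν)) := by
  obtain ⟨C, c, δ, hC, hc, hδ, hmain⟩ := hRC ((p * (m + 5) + A + 1 : ℕ) : ℝ) (by positivity)
  obtain ⟨S₀, hS₀, hS₀1, habs⟩ := absorb p (m + 5) A (C := C)
    (Cf_pos (m := m) (Module.finrank ℝ E) hck) hc hδ (c0_pos (m := m) hck)
  refine ⟨C, δ, S₀, hC, hδ, hS₀, hS₀1, ?_⟩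
  intro T w ε κ h₁ z t d S h G h' ν P f M I hSS hLd hM hT
  obtain ⟨hL, b1, b2, b3, b4, b6, b5⟩ := habs S d I.Spos hSS I.dpos hLd
  have ht := I.tpos
  have hF := fine_of I hk hck hlow b1 b6
  have h1 := hmain T w ε κ h₁ z t h d _ ν P _ I.conf hF b2 b3 hT
  rw [FSig_const_mul] at h1
  have e1 : ∫ Y, M⁻¹ * f (T.starProjection Y) * ‖co T Y‖ ^ 2 ∂(fmeas T w h₁ ν) =
      M⁻¹ * ∫ Y, f (T.starProjection Y) * ‖co T Y‖ ^ 2 ∂(fmeas T w h₁ ν) := by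
    rw [← integral_const_mul]
    exact integral_congr_ae (Eventually.of_forall fun Y => by ring)
  rw [e1] at h1
  set X := FSig m Q T w (fmeas T w h₁ ν) (fP T w h₁ P) f
  set J := ∫ Y, f (T.starProjection Y) * ‖co T Y‖ ^ 2 ∂(fmeas T w h₁ ν)
  have h2 : X ≤ M * (((Real.log S⁻¹)⁻¹) ^ A * S * t ^ m) + C * κ ^ 2 * J := by
    have h3 : M⁻¹ * X ≤ ((Real.log S⁻¹)⁻¹) ^ A * S * t ^ m + C * κ ^ 2 * (M⁻¹ * J) := by
      refine h1.trans ?_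
      have : 0 < t ^ m := by positivity
      gcongr
    have h4 : M * (M⁻¹ * X) ≤
        M * (((Real.log S⁻¹)⁻¹) ^ A * S * t ^ m + C * κ ^ 2 * (M⁻¹ * J)) := by gcongr
    have h5 : M * (M⁻¹ * X) = X := by field_simp
    have h6 : M * (((Real.log S⁻¹)⁻¹) ^ A * S * t ^ m + C * κ ^ 2 * (M⁻¹ * J)) =
        M * (((Real.log S⁻¹)⁻¹) ^ A * S * t ^ m) + C * κ ^ 2 * J := by field_simp
    rw [h5, h6] at h4
    exact h4
  have e3 : t ^ (2 - (m : ℤ)) = t ^ 2 * t ^ (-(m : ℤ)) := by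
    rw [show (2 - (m : ℤ)) = 2 + (-(m : ℤ)) by ring, zpow_add₀ ht.ne']
    norm_cast
  have e4 : t ^ (-(m : ℤ)) * t ^ m = 1 := by
    rw [← zpow_natCast t m, ← zpow_add₀ ht.ne']; simp
  have e5 : 0 ≤ t ^ (2 - (m : ℤ)) := by positivity
  calc t ^ (2 - (m : ℤ)) * X ≤ t ^ (2 - (m : ℤ)) *
        (M * (((Real.log S⁻¹)⁻¹) ^ A * S * t ^ m) + C * κ ^ 2 * J) := by gcongr
    _ = M * (((Real.log S⁻¹)⁻¹) ^ A * S * t ^ 2) * (t ^ (-(m : ℤ)) * t ^ m) +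
        C * (κ * t) ^ 2 * (t ^ (-(m : ℤ)) * J) := by rw [e3]; ring
    _ = _ := by rw [e4, mul_one]

/-- **Area at one scale.** -/
theorem area_at {m Q : ℕ} (hAC : LOCF.AreaCurved E m Q) {k k' K : ℝ → ℝ} (hk : Kern k k' K)
    {ck : ℝ} (hck : 0 < ck) (hlow : KerLow ck k) (p : ℕ) :
    ∃ C δ S₀ : ℝ, 0 < C ∧ 0 < δ ∧ 0 < S₀ ∧ S₀ < 1 ∧ ∀ (T : Submodule ℝ E) (w : E → E)
      (ε κ h₁ : ℝ) (z : E) (t d S h : ℝ) (G : Set E) (h' : ℝ) (ν : Measure E)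
      (P : E → E →L[ℝ] E) (f : E → ℝ) (M : ℝ),
      Inp m Q T w ε κ h₁ z t d S k h δ G h' ν P → S ≤ S₀ → ((Real.log S⁻¹)⁻¹) ^ p ≤ d → 0 < M →
      LOCF.Test3 T w z t (fun x => M⁻¹ * f x) →
      t ^ (2 - (m : ℤ)) * |FSig m Q T w (fmeas T w h₁ ν) (fP T w h₁ P) f| ≤
        M * (C * (Real.log S⁻¹) ^ (p * (m + 5) + 1) * S * t ^ 2) + C * (κ * t) ^ 2 *
          (t ^ (-(m : ℤ)) * ∫ Y, f (T.starProjection Y) * ‖co T Y‖ ^ 2 ∂(fmeas T w h₁ ν)) := by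
  obtain ⟨C, c, δ, hC, hc, hδ, hmain⟩ := hAC
  obtain ⟨S₀, hS₀, hS₀1, habs⟩ := absorb p (m + 5) 0 (C := C)
    (Cf_pos (m := m) (Module.finrank ℝ E) hck) hc hδ (c0_pos (m := m) hck)
  refine ⟨C, δ, S₀, hC, hδ, hS₀, hS₀1, ?_⟩
  intro T w ε κ h₁ z t d S h G h' ν P f M I hSS hLd hM hT
  obtain ⟨hL, b1, b2, b3, b4, b6, b5⟩ := habs S d I.Spos hSS I.dpos hLd
  have ht := I.tpos
  have hF := fine_of I hk hck hlow b1 b6
  have h1 := hmain T w ε κ h₁ z t h d _ ν P _ I.conf hF b2 b3 hT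
  rw [FSig_const_mul, abs_mul, abs_of_pos (show 0 < M⁻¹ by positivity)] at h1
  have e1 : ∫ Y, M⁻¹ * f (T.starProjection Y) * ‖co T Y‖ ^ 2 ∂(fmeas T w h₁ ν) =
      M⁻¹ * ∫ Y, f (T.starProjection Y) * ‖co T Y‖ ^ 2 ∂(fmeas T w h₁ ν) := by
    rw [← integral_const_mul]
    exact integral_congr_ae (Eventually.of_forall fun Y => by ring)
  rw [e1] at h1
  set X := |FSig m Q T w (fmeas T w h₁ ν) (fP T w h₁ P) f|
  set J := ∫ Y, f (T.starProjection Y) * ‖co T Y‖ ^ 2 ∂(fmeas T w h₁ ν)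
  have h2 : X ≤ M * (C * (Real.log S⁻¹) ^ (p * (m + 5) + 1) * S * t ^ m) + C * κ ^ 2 * J := by
    have h3 : M⁻¹ * X ≤ C * (Real.log S⁻¹) ^ (p * (m + 5) + 1) * S * t ^ m +
        C * κ ^ 2 * (M⁻¹ * J) := by
      refine h1.trans ?_
      have : 0 < t ^ m := by positivity
      have : C * (Cf m (Module.finrank ℝ E) ck * (d⁻¹) ^ (m + 5) * S) ≤
          C * ((Real.log S⁻¹) ^ (p * (m + 5) + 1) * S) := by gcongr
      have h8 : C * (Cf m (Module.finrank ℝ E) ck * (d⁻¹) ^ (m + 5) * S) * t ^ m ≤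
          C * ((Real.log S⁻¹) ^ (p * (m + 5) + 1) * S) * t ^ m := by gcongr
      linarith
    have h4 : M * (M⁻¹ * X) ≤ M * (C * (Real.log S⁻¹) ^ (p * (m + 5) + 1) * S * t ^ m +
        C * κ ^ 2 * (M⁻¹ * J)) := by gcongr
    have h5 : M * (M⁻¹ * X) = X := by field_simp
    have h6 : M * (C * (Real.log S⁻¹) ^ (p * (m + 5) + 1) * S * t ^ m +
        C * κ ^ 2 * (M⁻¹ * J)) =
        M * (C * (Real.log S⁻¹) ^ (p * (m + 5) + 1) * S * t ^ m) + C * κ ^ 2 * J := by field_simp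
    rw [h5, h6] at h4
    exact h4
  have e3 : t ^ (2 - (m : ℤ)) = t ^ 2 * t ^ (-(m : ℤ)) := by
    rw [show (2 - (m : ℤ)) = 2 + (-(m : ℤ)) by ring, zpow_add₀ ht.ne']
    norm_cast
  have e4 : t ^ (-(m : ℤ)) * t ^ m = 1 := by
    rw [← zpow_natCast t m, ← zpow_add₀ ht.ne']; simp
  have e5 : 0 ≤ t ^ (2 - (m : ℤ)) := by positivity
  calc t ^ (2 - (m : ℤ)) * X ≤ t ^ (2 - (m : ℤ)) *
        (M * (C * (Real.log S⁻¹) ^ (p * (m + 5) + 1) * S * t ^ m) + C * κ ^ 2 * J) := by gcongr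
    _ = M * (C * (Real.log S⁻¹) ^ (p * (m + 5) + 1) * S * t ^ 2) * (t ^ (-(m : ℤ)) * t ^ m) +
        C * (κ * t) ^ 2 * (t ^ (-(m : ℤ)) * J) := by rw [e3]; ring
    _ = _ := by rw [e4, mul_one]

/-- **Sup bound, energy and height at one scale**, and the product which occurs in the ODE. -/
theorem small_at {m Q : ℕ} {k k' K : ℝ → ℝ} (hk : Kern k k' K)
    {ck : ℝ} (hck : 0 < ck) (hlow : KerLow ck k) (A p : ℕ) :
    ∃ S₀ : ℝ, 0 < S₀ ∧ S₀ < 1 ∧ ∀ (T : Submodule ℝ E) (w : E → E)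
      (ε κ h₁ : ℝ) (z : E) (t d S h δ : ℝ) (G : Set E) (h' : ℝ) (ν : Measure E)
      (P : E → E →L[ℝ] E),
      Inp m Q T w ε κ h₁ z t d S k h δ G h' ν P → S ≤ S₀ → ((Real.log S⁻¹)⁻¹) ^ p ≤ d →
      (∀ᵐ Y ∂(fmeas T w h₁ ν), aX T w z Y < t ^ 2 → ‖co T Y‖ ≤ S ^ (1 / 4 : ℝ) * t) ∧
      t ^ (2 - (m : ℤ)) * ∫ Y in {Y | aX T w z Y < t ^ 2}, eS T w Y (fP T w h₁ P Y)
        ∂(fmeas T w h₁ ν) ≤ (Real.log S⁻¹) ^ (p * (m + 5) + 1) * S * t ^ 2 ∧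
      t ^ (-(m : ℤ)) * ∫ Y in {Y | aX T w z Y < t ^ 2}, ‖co T Y‖ ^ 2
        ∂(fmeas T w h₁ ν) ≤ (Real.log S⁻¹) ^ (p * (m + 5) + 1) * S * t ^ 2 ∧
      S ^ (1 / 4 : ℝ) * (t ^ (2 - (m : ℤ)) * (∫ Y in {Y | aX T w z Y < t ^ 2},
          eS T w Y (fP T w h₁ P Y) ∂(fmeas T w h₁ ν)) +
        t ^ (-(m : ℤ)) * ∫ Y in {Y | aX T w z Y < t ^ 2}, ‖co T Y‖ ^ 2 ∂(fmeas T w h₁ ν)) ≤
        ((Real.log S⁻¹)⁻¹) ^ A * S * t ^ 2 := by
  obtain ⟨S₀, hS₀, hS₀1, habs⟩ := absorb p (m + 5) 0 (C := 1) (c := 1) (δ := 1)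
    (Cf_pos (m := m) (Module.finrank ℝ E) hck) one_pos one_pos (c0_pos (m := m) hck)
  obtain ⟨S₁, hS₁, hp⟩ := WIN.exists_of_ev
    ((ev_log_pow 1 (p * (m + 5) + 1) (a := 1 / 2) (by norm_num)).and
      (ev_log_pow 2 (p * (m + 5) + 1 + A) (a := 1 / 4) (by norm_num)))
  refine ⟨min S₀ S₁, by positivity, (min_le_left _ _).trans_lt hS₀1, ?_⟩
  intro T w ε κ h₁ z t d S h δ G h' ν P I hSS hLd
  obtain ⟨hL, b1, -, -, b4, b6, -⟩ := habs S d I.Spos (hSS.trans (min_le_left _ _)) I.dpos hLd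
  obtain ⟨q1, q2⟩ := hp S I.Spos (hSS.trans (min_le_right _ _))
  have ht := I.tpos
  have hd := I.dpos
  have hS := I.Spos
  have hF := fine_of I hk hck hlow b1 b6
  have hCf := Cf_pos (m := m) (Module.finrank ℝ E) hck
  set Λ := Real.log S⁻¹ with hΛ
  have hΛ0 : 0 < Λ := by linarith
  set N := p * (m + 5) + 1 with hN
  have hw := I.conf.adm.ref
  haveI := I.cylF.fin
  have hdt : t ≤ (1 + d) * t := by nlinarith
  have hsub : ∀ Y, aX T w z Y < t ^ 2 → Y ∈ LOCF.adB T w z ((1 + d) * t) := fun Y hY =>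
    (lt_of_aX ht.le hY).trans_le hdt
  have e4 : t ^ (-(m : ℤ)) * t ^ m = 1 := by
    rw [← zpow_natCast t m, ← zpow_add₀ ht.ne']; simp
  have e3 : t ^ (2 - (m : ℤ)) = t ^ 2 * t ^ (-(m : ℤ)) := by
    rw [show (2 - (m : ℤ)) = 2 + (-(m : ℤ)) by ring, zpow_add₀ ht.ne']
    norm_cast
  have hb : BallIn T G z ((1 + d) * t) := BallIn.mono I.ball (by nlinarith)
  -- sup
  have r1 : ∀ᵐ Y ∂(fmeas T w h₁ ν), aX T w z Y < t ^ 2 → ‖co T Y‖ ^ 2 ≤ Λ ^ N * S * t ^ 2 := by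
    filter_upwards [hF.sup] with Y hY h1
    refine (hY (hsub Y h1)).trans ?_
    gcongr
  have hS14 : 0 ≤ S ^ (1 / 4 : ℝ) := Real.rpow_nonneg hS.le _
  have hS12 : Λ ^ N * S ≤ (S ^ (1 / 4 : ℝ)) ^ 2 := by
    have e5 : (S ^ (1 / 4 : ℝ)) ^ 2 = S ^ (1 / 2 : ℝ) := by
      rw [← Real.rpow_natCast, ← Real.rpow_mul hS.le]; norm_num
    have e6 : S = S ^ (1 / 2 : ℝ) * S ^ (1 / 2 : ℝ) := by
      rw [← Real.rpow_add hS]; norm_num
    have hsq : 0 ≤ S ^ (1 / 2 : ℝ) := Real.rpow_nonneg hS.le _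
    rw [e5]
    calc Λ ^ N * S = (1 * Λ ^ N * S ^ (1 / 2 : ℝ)) * S ^ (1 / 2 : ℝ) := by
          conv_lhs => rw [e6]
          ring
      _ ≤ 1 * S ^ (1 / 2 : ℝ) := by gcongr
      _ = _ := one_mul _
  -- energy
  have r2 : t ^ (2 - (m : ℤ)) * ∫ Y in {Y | aX T w z Y < t ^ 2}, eS T w Y (fP T w h₁ P Y)
      ∂(fmeas T w h₁ ν) ≤ Λ ^ N * S * t ^ 2 := by
    have h1 : ∫ Y in {Y | aX T w z Y < t ^ 2}, eS T w Y (fP T w h₁ P Y) ∂(fmeas T w h₁ ν) ≤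
        ∫ Y in {Y | aX T w z Y < ((1 + d) * t) ^ 2}, eS T w Y (fP T w h₁ P Y)
          ∂(fmeas T w h₁ ν) := by
      refine setIntegral_mono_set (gd_integrableOn hw (gd_eS I.cylF hw (by positivity) hb) le_rfl)
        (ae_restrict_of_ae (eS_nonneg I.cylF)) (Eventually.of_forall fun Y h5 => ?_)
      have h5' : aX T w z Y < t ^ 2 := h5
      exact lt_of_lt_of_le h5' (pow_le_pow_left₀ ht.le hdt 2)
    have h2 : {Y | aX T w z Y < ((1 + d) * t) ^ 2} = LOCF.adB T w z ((1 + d) * t) := by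
      ext Y
      exact ⟨fun h => lt_of_aX (by positivity) h, fun h => aX_lt h⟩
    rw [h2] at h1
    have h3 := h1.trans hF.exc
    rw [e3]
    calc t ^ 2 * t ^ (-(m : ℤ)) * ∫ Y in {Y | aX T w z Y < t ^ 2}, eS T w Y (fP T w h₁ P Y)
          ∂(fmeas T w h₁ ν)
        ≤ t ^ 2 * t ^ (-(m : ℤ)) * (Λ ^ N * S * t ^ m) := by
          have : 0 ≤ t ^ (-(m : ℤ)) := by positivity
          gcongr
          exact h3.trans (by gcongr)
      _ = Λ ^ N * S * t ^ 2 * (t ^ (-(m : ℤ)) * t ^ m) := by ring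
      _ = _ := by rw [e4, mul_one]
  -- height
  have r3 : t ^ (-(m : ℤ)) * ∫ Y in {Y | aX T w z Y < t ^ 2}, ‖co T Y‖ ^ 2
      ∂(fmeas T w h₁ ν) ≤ Λ ^ N * S * t ^ 2 := by
    have h1 := I.Ju_le hk hck hlow
    have h2 : ∫ Y in {Y | aX T w z Y < t ^ 2}, ‖co T Y‖ ^ 2 ∂(fmeas T w h₁ ν) ≤
        Ju T w z (fmeas T w h₁ ν) ((1 + 7 / 4 * d) * t) := by
      unfold Ju
      have h3 : t ≤ (1 + 7 / 4 * d) * t := by nlinarith
      have gu : Gd (aX T w z) (fmeas T w h₁ ν) ((1 + 7 / 4 * d) * t) (fun Y => ‖co T Y‖ ^ 2) :=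
        (I.cylF.gd hw (by positivity) (BallIn.mono I.ball (by nlinarith))
          (co T).continuous).norm.pow 2
      refine setIntegral_mono_set (gd_integrableOn hw gu le_rfl)
        (Eventually.of_forall fun _ => sq_nonneg _) (Eventually.of_forall fun Y h5 => ?_)
      have h5' : aX T w z Y < t ^ 2 := h5
      exact lt_of_lt_of_le h5' (pow_le_pow_left₀ ht.le h3 2)
    have h3 : C1 m ck * ((d⁻¹) ^ 3 * S * t ^ (m + 2)) ≤ Λ ^ N * S * t ^ (m + 2) := by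
      have hdi : (1:ℝ) ≤ d⁻¹ := (one_le_inv₀ hd).2 (by linarith [I.dle])
      have h6 : (d⁻¹) ^ 3 ≤ (d⁻¹) ^ (m + 5) := pow_le_pow_right₀ hdi (by omega)
      have h7 : C1 m ck ≤ Cf m (Module.finrank ℝ E) ck := by
        have := C2_pos (m := m) hck
        have := C3_nonneg (m := m) (Module.finrank ℝ E) hck
        unfold Cf; linarith
      calc C1 m ck * ((d⁻¹) ^ 3 * S * t ^ (m + 2))
          ≤ Cf m (Module.finrank ℝ E) ck * ((d⁻¹) ^ (m + 5) * S * t ^ (m + 2)) := by gcongr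
        _ = (Cf m (Module.finrank ℝ E) ck * (d⁻¹) ^ (m + 5) * S) * t ^ (m + 2) := by ring
        _ ≤ _ := by gcongr
    have h4 : (1024 : ℝ) * 2 ^ m / ck = C1 m ck := rfl
    rw [h4] at h1
    calc t ^ (-(m : ℤ)) * ∫ Y in {Y | aX T w z Y < t ^ 2}, ‖co T Y‖ ^ 2 ∂(fmeas T w h₁ ν)
        ≤ t ^ (-(m : ℤ)) * (Λ ^ N * S * t ^ (m + 2)) := by
          have : 0 ≤ t ^ (-(m : ℤ)) := by positivity
          gcongr
          exact h2.trans (h1.trans h3)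
      _ = Λ ^ N * S * t ^ 2 * (t ^ (-(m : ℤ)) * t ^ m) := by rw [pow_add]; ring
      _ = _ := by rw [e4, mul_one]
  refine ⟨?_, r2, r3, ?_⟩
  · filter_upwards [r1] with Y hY h1
    refine abs_le_of_sq_le_sq' ?_ (by positivity) |>.2
    rw [mul_pow]
    exact (hY h1).trans (by gcongr)
  · have h5 : 2 * Λ ^ (N + A) * S ^ (1 / 4 : ℝ) ≤ 1 := q2
    have h6 : S ^ (1 / 4 : ℝ) * (2 * Λ ^ N) ≤ (Λ⁻¹) ^ A := by
      rw [inv_pow, ← one_div, le_div_iff₀ (by positivity)]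
      rw [pow_add] at h5
      linarith
    calc _ ≤ S ^ (1 / 4 : ℝ) * (Λ ^ N * S * t ^ 2 + Λ ^ N * S * t ^ 2) := by gcongr
      _ = S ^ (1 / 4 : ℝ) * (2 * Λ ^ N) * (S * t ^ 2) := by ring
      _ ≤ (Λ⁻¹) ^ A * (S * t ^ 2) := by gcongr
      _ = _ := by ring

end Vale.Agent.P214.RC2X
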