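import Vale.Agent.P214.RC2X.Cacc
import Vale.Agent.P214.HSW.Sup

/-!
# P214, block RC2X: sup bounds of the height in Fermi coordinates

* `crude_sup`: if `∫_{|XX| < ρ} |u|² < c_g s^{m+2}` then `|u| < 8 s` a.e. on `{|XX| < ρ - 3s/2}`;
* `linear_sup`: `|u|² ≤ C s^{-m} ∫_{|XX| < ρ} |u|²` a.e. on `{|XX| < ρ - 3s/2}` (exact reference).
-/

open Set Filter Topology MeasureTheory Metric
open scoped RealInnerProductSpace ContDiff

set_option linter.all false

namespace Vale.Agent.P214.RC2X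

open FV ODE FM Vale.Agent.P214.HS

variable {E : Type*} [NormedAddCommGroup E] [InnerProductSpace ℝ E] [FiniteDimensional ℝ E]

/-! ### Lipschitz bounds -/

section lip

variable {T : Submodule ℝ E} {w : E → E} {ε κ h₁ : ℝ} {z : E}

lemma norm_XX_sub_le (z Y Y' : E) : ‖XX T w z Y - XX T w z Y'‖ ≤ ‖Y - Y'‖ := by
  have h1 : XX T w z Y - XX T w z Y' = T.starProjection (Y - Y') := by
    show T.starProjection (Y - z) - T.starProjection (Y' - z) = _
    rw [← map_sub]; congr 1; abel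
  rw [h1]
  exact norm_star_le T _

lemma norm_PsiInv_sub_le (H : Adm T w ε κ h₁) (y y' : E) :
    ‖PsiInv T w h₁ y - PsiInv T w h₁ y'‖ ≤ 4 / 3 * ‖y - y'‖ := by
  have hd : Differentiable ℝ (PsiInv T w h₁) := H.contDiff_PsiInv.differentiable (by simp)
  refine (convex_univ (𝕜 := ℝ) (E := E)).norm_image_sub_le_of_norm_hasFDerivWithin_le
    (fun x _ => (hd x).hasFDerivAt.hasFDerivWithinAt) (fun x _ => ?_) (mem_univ _)
    (mem_univ _)
  have h1 := H.fderiv_PsiInv (PsiInv T w h₁ x)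
  rw [H.Psi_PsiInv] at h1
  rw [h1]
  exact H.norm_Jm_le _

lemma norm_XX_PsiInv_sub_le (H : Adm T w ε κ h₁) (z y y' : E) :
    ‖XX T w z (PsiInv T w h₁ y)‖ ≤ ‖XX T w z (PsiInv T w h₁ y')‖ + 3 / 2 * ‖y - y'‖ := by
  have h1 := norm_XX_sub_le (T := T) (w := w) z (PsiInv T w h₁ y) (PsiInv T w h₁ y')
  have h2 := norm_PsiInv_sub_le H y y'
  have h3 : ‖XX T w z (PsiInv T w h₁ y)‖ ≤ ‖XX T w z (PsiInv T w h₁ y')‖ +
      ‖XX T w z (PsiInv T w h₁ y) - XX T w z (PsiInv T w h₁ y')‖ := by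
    calc _ = ‖XX T w z (PsiInv T w h₁ y') +
          (XX T w z (PsiInv T w h₁ y) - XX T w z (PsiInv T w h₁ y'))‖ := by congr 1; abel
      _ ≤ _ := norm_add_le _ _
  have h4 := norm_nonneg (y - y')
  linarith

lemma kmsRef (hw : Ref T w ε κ) : KMS.Ref T w :=
  ⟨hw.smooth, fun y => (hw.base y).symm, fun y =>
    (Submodule.starProjection_apply_eq_zero_iff _).1 (hw.perp y)⟩

lemma norm_rel_sub_le (hw : Ref T w ε κ) (hε : ε ≤ 1 / 16) (y y' : E) :
    ‖KMS.rel T w y - KMS.rel T w y'‖ ≤ 17 / 16 * ‖y - y'‖ := by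
  have h1 : ‖w y - w y'‖ ≤ 1 / 16 * ‖y - y'‖ := by
    refine ((convex_univ (𝕜 := ℝ) (E := E)).norm_image_sub_le_of_norm_hasFDerivWithin_le
      (f := w) (f' := fderiv ℝ w) (C := ε) (fun z _ => (hw.diff z).hasFDerivAt.hasFDerivWithinAt)
      (fun z _ => hw.slope z) (mem_univ _) (mem_univ _)).trans (by gcongr)
  have e1 : KMS.rel T w y - KMS.rel T w y' = co T (y - y') - (w y - w y') := by
    unfold KMS.rel; rw [map_sub]; abel
  rw [e1]
  calc _ ≤ ‖co T (y - y')‖ + ‖w y - w y'‖ := norm_sub_le _ _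
    _ ≤ ‖y - y'‖ + 1 / 16 * ‖y - y'‖ := by gcongr; exact norm_co_le T _
    _ = _ := by ring

lemma norm_rel_Psi_le (H : Adm T w ε κ h₁) (Y : E) :
    ‖KMS.rel T w (Psi T w h₁ Y)‖ ≤ 2 * ‖co T Y‖ := by
  have h1 := H.ref.norm_height_le h₁ Y
  have hε : ε ^ 2 ≤ 1 := by
    have := H.hε.trans eps0_le
    have := H.ref.eps_nonneg
    nlinarith
  have h2 : ‖KMS.rel T w (Psi T w h₁ Y)‖ ≤ ‖co T Y‖ + ‖co T Y - KMS.rel T w (Psi T w h₁ Y)‖ := by
    calc _ = ‖co T Y - (co T Y - KMS.rel T w (Psi T w h₁ Y))‖ := by congr 1; abel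
      _ ≤ _ := norm_sub_le _ _
  have h3 : ‖co T Y - KMS.rel T w (Psi T w h₁ Y)‖ ≤ ε ^ 2 * ‖co T Y‖ := h1
  have h4 := norm_nonneg (co T Y)
  nlinarith

lemma norm_co_le_rel_Psi (H : Adm T w ε κ h₁) (Y : E) :
    ‖co T Y‖ ≤ 2 * ‖KMS.rel T w (Psi T w h₁ Y)‖ := by
  have h1 := H.ref.norm_height_le h₁ Y
  have hε : ε ^ 2 ≤ 1 / 2 := by
    have := H.hε.trans eps0_le
    have := H.ref.eps_nonneg
    nlinarith
  have h2 : ‖co T Y‖ ≤ ‖KMS.rel T w (Psi T w h₁ Y)‖ +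
      ‖co T Y - KMS.rel T w (Psi T w h₁ Y)‖ := by
    calc _ = ‖KMS.rel T w (Psi T w h₁ Y) + (co T Y - KMS.rel T w (Psi T w h₁ Y))‖ := by
          congr 1; abel
      _ ≤ _ := norm_add_le _ _
  have h3 : ‖co T Y - KMS.rel T w (Psi T w h₁ Y)‖ ≤ ε ^ 2 * ‖co T Y‖ := h1
  have h4 := norm_nonneg (co T Y)
  nlinarith

end lip

variable [MeasurableSpace E] [BorelSpace E]

variable {m Q : ℕ} {T : Submodule ℝ E} {w : E → E} {ε κ h₁ : ℝ} {G : Set E} {h h' δ R ρ ρ₁ s : ℝ}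
  {ν : Measure E} {P : E → E →L[ℝ] E} {z : E}

/-- height integral over the ball of radius `ρ` -/
noncomputable def Ju (T : Submodule ℝ E) (w : E → E) (z : E) (μ : Measure E) (ρ : ℝ) : ℝ :=
  ∫ Y in {Y | aX T w z Y < ρ ^ 2}, ‖co T Y‖ ^ 2 ∂μ

lemma Ju_nonneg (μ : Measure E) : 0 ≤ Ju T w z μ ρ := integral_nonneg fun _ => sq_nonneg _

/-- a.e. statements in Fermi coordinates are a.e. statements in the ambient space -/
lemma ae_ambient (H : Adm T w ε κ h₁) {p : E → Prop} (hp : ∀ᵐ Y ∂(fmeas T w h₁ ν), p Y) :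
    ∀ᵐ y ∂ν, p (PsiInv T w h₁ y) :=
  ae_of_ae_map H.aem.aemeasurable hp

/-- bound of an ambient integral by the height integral -/
lemma integral_le_Ju (H : Adm T w ε κ h₁)
    (hC : CylF m T w h₁ G h' (fmeas T w h₁ ν) (fP T w h₁ P)) (hρ : 0 ≤ ρ) (hG : BallIn T G z ρ)
    {F : E → ℝ} (hF0 : ∀ y, 0 ≤ F y) {C : ℝ} (hC0 : 0 ≤ C)
    (hF : ∀ Y, aX T w z Y < ρ ^ 2 → F (Psi T w h₁ Y) ≤ C * ‖co T Y‖ ^ 2)
    (hF' : ∀ Y, ¬ aX T w z Y < ρ ^ 2 → F (Psi T w h₁ Y) = 0) :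
    ∫ y, F y ∂ν ≤ C * Ju T w z (fmeas T w h₁ ν) ρ := by
  haveI := hC.fin
  rw [← H.integral_fmeas ν F]
  unfold Ju
  rw [← integral_indicator (measurableSet_ball H.ref z _), ← integral_const_mul]
  have gu : Gd (aX T w z) (fmeas T w h₁ ν) ρ (fun Y => ‖co T Y‖ ^ 2) :=
    (hC.gd H.ref hρ hG (co T).continuous).norm.pow 2
  refine integral_mono_of_nonneg (Eventually.of_forall fun Y => hF0 _)
    ((gd_integrable_ind H.ref gu (c := ρ ^ 2) le_rfl).const_mul C)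
    (Eventually.of_forall fun Y => ?_)
  by_cases h1 : aX T w z Y < ρ ^ 2
  · simp only [indicator_of_mem (show Y ∈ {Y | aX T w z Y < ρ ^ 2} from h1)]
    exact hF Y h1
  · simp only [indicator_of_notMem (show Y ∉ {Y | aX T w z Y < ρ ^ 2} from h1), mul_zero]
    exact (hF' Y h1).le

lemma aX_lt_of_mem (H : Adm T w ε κ h₁) {y₀ y : E} (hs : 0 ≤ s)
    (hy₀ : ‖XX T w z (PsiInv T w h₁ y₀)‖ < ρ₁) (hρ : ρ₁ + 3 / 2 * s ≤ ρ) (hy : y ∈ closedBall y₀ s) :
    ‖XX T w z (PsiInv T w h₁ y)‖ < ρ := by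
  rw [mem_closedBall, dist_eq_norm] at hy
  have := norm_XX_PsiInv_sub_le H z y y₀
  linarith

lemma lt_of_aX {Y : E} (hρ : 0 ≤ ρ) (h : aX T w z Y < ρ ^ 2) : ‖XX T w z Y‖ < ρ :=
  lt_of_pow_lt_pow_left₀ 2 hρ h

lemma aX_lt {Y : E} (h : ‖XX T w z Y‖ < ρ) : aX T w z Y < ρ ^ 2 := by
  unfold aX; gcongr

/-- the base point of an ambient point in the Fermi ball -/
lemma norm_base_le (H : Adm T w ε κ h₁) (hz : z ∈ T) {y : E}
    (hy : ‖XX T w z (PsiInv T w h₁ y)‖ < ρ) :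
    ‖T.starProjection y - z‖ < ρ + 1 / 16 * ‖co T (PsiInv T w h₁ y)‖ := by
  set Y := PsiInv T w h₁ y with hY
  have h1 := H.ref.norm_star_Psi_sub_le' h₁ Y
  rw [hY, H.Psi_PsiInv, ← hY] at h1
  have h2 : T.starProjection Y - z = bx T z Y := by
    rw [bx_eq, Submodule.starProjection_eq_self_iff.2 hz]
  have h3 : ‖T.starProjection Y - z‖ < ρ := by
    rw [h2]; exact (H.ref.norm_bx_le_XX z Y).trans_lt hy
  have h4 : ε * ‖co T Y‖ ≤ 1 / 16 * ‖co T Y‖ := by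
    have := H.eps_le
    gcongr
  calc ‖T.starProjection y - z‖ = ‖(T.starProjection Y - z) +
        (T.starProjection y - T.starProjection Y)‖ := by congr 1; abel
    _ ≤ ‖T.starProjection Y - z‖ + ‖T.starProjection y - T.starProjection Y‖ := norm_add_le _ _
    _ < _ := by linarith

/-- **Crude sup bound** (no minimality needed). -/
theorem crude_sup (H : Adm T w ε κ h₁) (hI : Skel.IntCyl m Q T z R h δ ν P)
    (hC : CylF m T w h₁ G h' (fmeas T w h₁ ν) (fP T w h₁ P)) (hs : 0 < s) (hρ₁ : 0 ≤ ρ₁)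
    (hρ : ρ₁ + 3 / 2 * s ≤ ρ) (hG : BallIn T G z ρ) {b : ℝ} (hR : ρ + b ≤ R)
    (hb₀ : ∀ᵐ Y ∂(fmeas T w h₁ ν), aX T w z Y < ρ ^ 2 → ‖co T Y‖ ≤ b)
    (hJ : Ju T w z (fmeas T w h₁ ν) ρ < cg m * s ^ (m + 2)) :
    ∀ᵐ Y ∂(fmeas T w h₁ ν), aX T w z Y < ρ₁ ^ 2 → ‖co T Y‖ < 8 * s := by
  haveI := hC.fin
  have hfin := hI.cyl.fin
  have hw := H.ref
  have hρ0 : 0 < ρ := by linarith
  have hsupp : ∀ᵐ y ∂ν, y ∈ ν.support := Measure.support_mem_ae
  filter_upwards [H.ae_fmeas hsupp, hb₀] with Y hYs hYb hYa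
  have hX : ‖XX T w z Y‖ < ρ₁ := lt_of_aX hρ₁ hYa
  have hb := hYb (aX_lt (by linarith))
  set y₀ := Psi T w h₁ Y with hy₀
  have hYe : PsiInv T w h₁ y₀ = Y := H.PsiInv_Psi Y
  set a := ‖KMS.rel T w y₀‖ with ha
  have hlt : a < 4 * s := by
    by_contra hcon
    have hcon := not_lt.1 hcon
    -- lower density
    have hbase := norm_base_le H hI.mem (y := y₀) (z := z) (ρ := ρ₁) (by rw [hYe]; exact hX)
    rw [hYe] at hbase
    have hlow := QP.low_intCyl hI hYs hs (by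
      have := norm_nonneg (co T Y)
      linarith)
    -- lower bound of the height on the ball
    have hup := integral_le_Ju (ν := ν) (P := P) (z := z) H hC hρ0.le hG
      (F := (closedBall y₀ s).indicator fun _ => a ^ 2 / 4) (C := 4)
      (fun y => indicator_nonneg (fun _ _ => by positivity) y) (by norm_num)
      (fun Y' h1 => by
        by_cases h2 : Psi T w h₁ Y' ∈ closedBall y₀ s
        · rw [indicator_of_mem h2]
          have h3 := norm_rel_sub_le hw H.eps_le y₀ (Psi T w h₁ Y')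
          have h4 : ‖y₀ - Psi T w h₁ Y'‖ ≤ s := by
            rw [mem_closedBall, dist_eq_norm] at h2
            rw [norm_sub_rev]; exact h2
          have h5 : a ≤ ‖KMS.rel T w (Psi T w h₁ Y')‖ +
              ‖KMS.rel T w y₀ - KMS.rel T w (Psi T w h₁ Y')‖ := by
            calc a = ‖KMS.rel T w (Psi T w h₁ Y') +
                  (KMS.rel T w y₀ - KMS.rel T w (Psi T w h₁ Y'))‖ := by rw [ha]; congr 1; abel
              _ ≤ _ := norm_add_le _ _
          have h6 := norm_rel_Psi_le H Y'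
          have h7 : a / 2 ≤ 2 * ‖co T Y'‖ := by linarith
          have h8 : 0 ≤ a := norm_nonneg _
          calc a ^ 2 / 4 = (a / 2) ^ 2 := by ring
            _ ≤ (2 * ‖co T Y'‖) ^ 2 := by gcongr
            _ = _ := by ring
        · rw [indicator_of_notMem h2]; positivity)
      (fun Y' h1 => by
        rw [indicator_of_notMem]
        intro h2
        apply h1
        apply aX_lt
        have := aX_lt_of_mem (z := z) (ρ₁ := ρ₁) H hs.le (by rw [hYe]; exact hX) hρ h2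
        rwa [H.PsiInv_Psi] at this)
    have h9 : ∫ y, (closedBall y₀ s).indicator (fun _ => a ^ 2 / 4) y ∂ν =
        ν.real (closedBall y₀ s) * (a ^ 2 / 4) := by
      rw [integral_indicator measurableSet_closedBall, setIntegral_const, smul_eq_mul]
    rw [h9] at hup
    have h10 : cg m * s ^ m * ((4 * s) ^ 2 / 4) ≤ ν.real (closedBall y₀ s) * (a ^ 2 / 4) := by
      gcongr
    have h11 : cg m * s ^ m * ((4 * s) ^ 2 / 4) = 4 * (cg m * s ^ (m + 2)) := by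
      rw [pow_add]; ring
    linarith
  have := norm_co_le_rel_Psi H Y
  linarith

/-- **Linear sup bound** relative to an exact minimal reference. -/
theorem linear_sup (H : Adm T w ε κ h₁) (hI : Skel.IntCyl m Q T z R h δ ν P)
    (hC : CylF m T w h₁ G h' (fmeas T w h₁ ν) (fP T w h₁ P)) {G' : Set E}
    (hmin : MinimalOver T w G') (hs : 0 < s) (hρ₁ : 0 ≤ ρ₁) (hρ : ρ₁ + 3 / 2 * s ≤ ρ)
    (hG : BallIn T G z ρ) (hG' : BallIn T G' z (ρ + s)) (hR : ρ + s ≤ R) (hκ : κ * s ≤ 1)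
    (hb : ∀ᵐ Y ∂(fmeas T w h₁ ν), aX T w z Y < ρ ^ 2 → ‖co T Y‖ < 16 * s) :
    ∀ᵐ Y ∂(fmeas T w h₁ ν), aX T w z Y < ρ₁ ^ 2 →
      cg m * ‖co T Y‖ ^ 2 ≤
        16 * Real.exp (3 * m / 2) * (Ju T w z (fmeas T w h₁ ν) ρ / s ^ m) := by
  haveI := hC.fin
  have hfin := hI.cyl.fin
  have hw := H.ref
  have hρ0 : 0 < ρ := by linarith
  have hsupp : ∀ᵐ y ∂ν, y ∈ ν.support := Measure.support_mem_ae
  have hL : LocStat m (T.starProjection ⁻¹' (ball z R)) ν P := INT.locStat_of_cylStat hI.cyl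
  have hd := QP.densLow_intCyl hI
  filter_upwards [H.ae_fmeas hsupp, hb] with Y hYs hYb hYa
  have hX : ‖XX T w z Y‖ < ρ₁ := lt_of_aX hρ₁ hYa
  have hYb' := hYb (aX_lt (by linarith))
  set y₀ := Psi T w h₁ Y with hy₀
  have hYe : PsiInv T w h₁ y₀ = Y := H.PsiInv_Psi Y
  have hball : closedBall y₀ s ⊆ T.starProjection ⁻¹' (ball z R) := by
    intro y hy
    rw [mem_closedBall, dist_eq_norm] at hy
    rw [mem_preimage, mem_ball, dist_eq_norm]
    have hbase := norm_base_le H hI.mem (y := y₀) (z := z) (ρ := ρ₁) (by rw [hYe]; exact hX)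
    rw [hYe] at hbase
    have e : T.starProjection y - z = T.starProjection (y - y₀) + (T.starProjection y₀ - z) := by
      rw [map_sub]; abel
    rw [e]
    have := norm_add_le (T.starProjection (y - y₀)) (T.starProjection y₀ - z)
    have := FV.norm_star_le T (y - y₀)
    linarith
  have hKw := kmsRef hw
  have key := HSW.le_mean (F := fun y => ‖KMS.rel T w y‖ ^ 2) hL (cg_pos m) hd hYs
    ((hKw.contDiff_rel.of_le KMS.two_le_inf).norm_sq ℝ) (fun y => sq_nonneg _)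
    (lam := 18 * m * κ ^ 2) (by positivity) hs hball (by
      filter_upwards [hI.cyl.proj, ae_ambient H hb] with y hy hyb hyB
      obtain ⟨S, hS, hP⟩ := hy
      rw [hP]
      have h1 := aX_lt_of_mem (z := z) (ρ₁ := ρ₁) H hs.le (by rw [hYe]; exact hX) hρ hyB
      have h2 := hyb (aX_lt h1)
      have h3 := norm_base_le H hI.mem h1
      have hex : lap w (PS T w y) y = 0 := by
        refine hmin y (hG' _ (T.starProjection_apply_mem y) ?_)
        rw [Submodule.starProjection_eq_self_iff.2 hI.mem]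
        linarith
      refine HSW.hess_normsq_rel_ge hKw hS hI.cyl.dimT hex ?_ (hw.norm_D2_le y)
      exact (hw.slope y).trans (H.eps_le.trans (by norm_num)))
  have h3 : wmass ν y₀ (fun y => ‖KMS.rel T w y‖ ^ 2) s ≤ 4 * Ju T w z (fmeas T w h₁ ν) ρ := by
    unfold wmass
    refine integral_le_Ju (ν := ν) (P := P) (z := z) H hC hρ0.le hG
      (fun y => mul_nonneg (cut_nonneg y₀ s y) (sq_nonneg _)) (by norm_num)
      (fun Y' h1 => ?_) (fun Y' h1 => ?_)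
    · have h6 := norm_rel_Psi_le H Y'
      have h7 : ‖KMS.rel T w (Psi T w h₁ Y')‖ ^ 2 ≤ 4 * ‖co T Y'‖ ^ 2 := by
        calc _ ≤ (2 * ‖co T Y'‖) ^ 2 := by gcongr
          _ = _ := by ring
      have := cut_le_one y₀ s (Psi T w h₁ Y')
      have := cut_nonneg y₀ s (Psi T w h₁ Y')
      have := sq_nonneg ‖KMS.rel T w (Psi T w h₁ Y')‖
      nlinarith
    · rw [cut_eq_zero hs, zero_mul]
      by_contra h4
      apply h1
      apply aX_lt
      have h5 : Psi T w h₁ Y' ∈ closedBall y₀ s := by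
        rw [mem_closedBall, dist_eq_norm]; exact (not_le.1 h4).le
      have := aX_lt_of_mem (z := z) (ρ₁ := ρ₁) H hs.le (by rw [hYe]; exact hX) hρ h5
      rwa [H.PsiInv_Psi] at this
  have h4 : Real.exp (18 * m * κ ^ 2 * s ^ 2 / 12) ≤ Real.exp (3 * m / 2) := by
    refine Real.exp_le_exp.2 ?_
    have h5 : κ ^ 2 * s ^ 2 ≤ 1 := by
      have h6 : 0 ≤ κ * s := mul_nonneg hw.knn hs.le
      calc κ ^ 2 * s ^ 2 = (κ * s) ^ 2 := by ring
        _ ≤ 1 := by nlinarith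
    have h7 : (0:ℝ) ≤ m := Nat.cast_nonneg m
    nlinarith
  have h5 := norm_co_le_rel_Psi H Y
  have hcg := cg_pos m
  have hJ0 := Ju_nonneg (T := T) (w := w) (z := z) (ρ := ρ) (fmeas T w h₁ ν)
  have hw0 : 0 ≤ wmass ν y₀ (fun y => ‖KMS.rel T w y‖ ^ 2) s / s ^ m :=
    div_nonneg (integral_nonneg fun y => mul_nonneg (cut_nonneg y₀ s y) (sq_nonneg _))
      (by positivity)
  calc cg m * ‖co T Y‖ ^ 2 ≤ cg m * (2 * ‖KMS.rel T w y₀‖) ^ 2 := by gcongr
    _ = 4 * (cg m * ‖KMS.rel T w y₀‖ ^ 2) := by ring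
    _ ≤ 4 * (Real.exp (3 * m / 2) * ((4 * Ju T w z (fmeas T w h₁ ν) ρ) / s ^ m)) := by
        refine mul_le_mul_of_nonneg_left (key.trans ?_) (by norm_num)
        gcongr
    _ = _ := by ring

end Vale.Agent.P214.RC2X
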